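import Vale.Agent.P219.CH.Full.Minimiser.Basic
import Vale.Agent.P219.CH.Full.Statements

/-!
P219, the minimiser module: the first variation of the weak limit of almost minimisers.

The competitors are `f ∘ (x ↦ x + t • X x)`; the limit is taken at fixed `t` and then `t → 0`.
-/

namespace Vale.Agent.P219.CH.Full.Minimiser

open MeasureTheory Filter Topology Set Metric
open scoped ContDiff RealInnerProductSpace

noncomputable section

variable {n : ℕ} {G : Coeff n}

/-- The displaced function. -/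
def move (f : E n → ℝ) (X : E n → E n) (t : ℝ) (x : E n) : ℝ := f (x + t • X x)

theorem cls_move {f : E n → ℝ} (hf : Cls f) {X : E n → E n} (hX : ContDiff ℝ 1 X)
    (hXc : HasCompactSupport X) (t : ℝ) : Cls (move f X t) where
  c1 := hf.c1.comp (contDiff_id.add (hX.const_smul t))
  supp := HasCompactSupport.intro (hf.supp.union hXc) fun x hx => by
    rw [mem_union, not_or] at hx
    simp [move, image_eq_zero_of_notMem_tsupport hx.2, image_eq_zero_of_notMem_tsupport hx.1]
  mem x := hf.mem _

/-- The optimal modulus of continuity. -/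
def modulus {α : Type*} [NormedAddCommGroup α] (F : E n → α) (s : ℝ) : ℝ :=
  sSup ((fun p : E n × E n => ‖F p.1 - F p.2‖) '' {p | ‖p.1 - p.2‖ ≤ |s|})

theorem tendsto_modulus {α : Type*} [NormedAddCommGroup α] {F : E n → α}
    (hu : UniformContinuous F) : Tendsto (modulus F) (𝓝 0) (𝓝 0) := by
  rw [Metric.tendsto_nhds_nhds]
  intro ε hε
  obtain ⟨d, hd, hd'⟩ := Metric.uniformContinuous_iff.1 hu (ε / 2) (half_pos hε)
  refine ⟨d, hd, fun s hs => ?_⟩
  rw [dist_zero_right, Real.norm_eq_abs] at hs ⊢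
  have h1 : modulus F s ≤ ε / 2 := csSup_le
    (Set.Nonempty.image _ ⟨((0 : E n), (0 : E n)), by simp⟩)
    (forall_mem_image.2 fun p hp => by
      have := hd' (a := p.1) (b := p.2) (by rw [dist_eq_norm]; exact lt_of_le_of_lt hp hs)
      rw [dist_eq_norm] at this
      exact this.le)
  have h2 : 0 ≤ modulus F s := Real.sSup_nonneg (forall_mem_image.2 fun p _ => norm_nonneg _)
  rw [abs_of_nonneg h2]
  linarith

theorem le_modulus {α : Type*} [NormedAddCommGroup α] {F : E n → α} {C : ℝ}
    (hC : ∀ x, ‖F x‖ ≤ C) (x y : E n) : ‖F x - F y‖ ≤ modulus F ‖x - y‖ :=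
  le_csSup ⟨C + C, forall_mem_image.2 fun p _ =>
      (norm_sub_le _ _).trans (add_le_add (hC p.1) (hC p.2))⟩
    ⟨(x, y), show ‖x - y‖ ≤ |‖x - y‖| from le_abs_self _, rfl⟩

theorem exists_fieldBound {X : E n → E n} (hX : ContDiff ℝ 1 X) (hXc : HasCompactSupport X) :
    ∃ (M : ℝ) (ν : ℝ → ℝ), 0 ≤ M ∧ Tendsto ν (𝓝 0) (𝓝 0) ∧
      Core.FieldBound (tsupport X) M ν X := by
  have hc := hX.continuous_fderiv one_ne_zero
  obtain ⟨M₁, hM₁⟩ := hXc.exists_bound_of_continuous hX.continuous
  obtain ⟨M₂, hM₂⟩ := (hXc.fderiv ℝ).exists_bound_of_continuous hc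
  exact ⟨max M₁ M₂, modulus (fderiv ℝ X), ((norm_nonneg _).trans (hM₁ 0)).trans (le_max_left _ _),
    tendsto_modulus ((hXc.fderiv ℝ).uniformContinuous_of_continuous hc),
    hX, subset_rfl, fun x => ⟨(hM₁ x).trans (le_max_left _ _), (hM₂ x).trans (le_max_right _ _)⟩,
    le_modulus hM₂⟩

theorem const_move (hG : IsMetric G) {X : E n → E n} {M : ℝ} {ν : ℝ → ℝ}
    (hν : Tendsto ν (𝓝 0) (𝓝 0)) (hXc : HasCompactSupport X)
    (hB : Core.FieldBound (tsupport X) M ν X) {g : E n → ℝ} (hg : Continuous g)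
    (hgc : HasCompactSupport g) {δ : ℝ} (hδ : 0 < δ) :
    ∃ t₀ : ℝ, 0 < t₀ ∧ ∀ t : ℝ, 0 < t → t ≤ t₀ → ∀ f : E n → ℝ, Cls f →
      |(∫ x, g x * move f X t x ∂vol G) - ∫ x, g x * f x ∂vol G| ≤ δ := by
  have := Core.Mini.locallyFinite_vol hG
  set K := tsupport g ∪ tsupport X with hK
  have hKc : IsCompact K := hgc.union hXc
  set V := (vol G).real K with hV
  have hV0 : 0 ≤ V := measureReal_nonneg
  set ε := δ / (4 * (V + 1)) with hε
  have hε0 : 0 < ε := by positivity
  obtain ⟨g₁, hg₁, hd, hs⟩ := hg.exists_contDiff_approx 1 (ε := fun _ => ε) continuous_const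
    fun _ => hε0
  have hg₁' : ContDiff ℝ 1 g₁ := by exact_mod_cast hg₁
  have hg₁c : HasCompactSupport g₁ := hgc.mono hs
  have hg₁u : UniformContinuous g₁ := hg₁c.uniformContinuous_of_continuous hg₁'.continuous
  obtain ⟨d, hd0, hd'⟩ := Metric.uniformContinuous_iff.1 hg₁u ε hε0
  obtain ⟨t₁, ht₁, hvar⟩ := Core.variationStmt n G hG (tsupport X) hXc M ν hν 1 one_pos
  obtain ⟨B, hB'⟩ := (HasCompactSupport.intro hXc fun x hx => divg_eq_zero hx :
    HasCompactSupport (divg G X)).exists_bound_of_continuous (continuous_divg hG hB.1)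
  have hB0 : 0 ≤ B := (norm_nonneg _).trans (hB' 0)
  obtain ⟨C, hC⟩ := hg₁c.exists_bound_of_continuous hg₁'.continuous
  have hC0 : 0 ≤ C := (norm_nonneg _).trans (hC 0)
  have hM0 : 0 ≤ M := (norm_nonneg _).trans (hB.2.2.1 0).1
  refine ⟨min t₁ (min (d / (2 * (M + 1))) (δ / (4 * ((B + 1) * C * V + 1)))),
    lt_min ht₁ (lt_min (by positivity) (by positivity)), fun t ht htt f hf => ?_⟩
  simp only [le_min_iff] at htt
  obtain ⟨htt1, htd, htδ⟩ := htt
  have hm := cls_move hf hB.1 hXc t
  have hsub : ∀ {h : E n → ℝ}, (∀ x, |h x| ≤ ε) → (∀ x, x ∉ K → h x = 0) → Continuous h →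
      |∫ x, h x ∂vol G| ≤ ε * V := fun {h} hb hz hc => by
    have hi := Core.Mini.integrable_of_supp hG hc (HasCompactSupport.intro hKc hz)
    refine abs_integral_le_integral_abs.trans ?_
    calc ∫ x, |h x| ∂vol G ≤ ∫ x, K.indicator (fun _ => ε) x ∂vol G := by
          refine integral_mono hi.abs
            ((integrableOn_const hKc.measure_lt_top.ne).integrable_indicator hKc.measurableSet)
            fun x => ?_
          by_cases hx : x ∈ K
          · simpa [hx] using hb x
          · simp [hx, hz x hx]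
      _ = ε * V := by
          rw [integral_indicator_const _ hKc.measurableSet, smul_eq_mul, mul_comm]
  have hout : ∀ x, x ∉ K → g x = 0 ∧ g₁ x = 0 := fun x hx => by
    have h0 : g x = 0 := image_eq_zero_of_notMem_tsupport fun h => hx (Or.inl h)
    refine ⟨h0, ?_⟩
    by_contra h
    exact hs h h0
  have happ : ∀ (u : E n → ℝ), Cls u →
      |(∫ x, g x * u x ∂vol G) - ∫ x, g₁ x * u x ∂vol G| ≤ ε * V := fun u hu => by
    rw [← integral_sub (hu.integrable hG hg) (hu.integrable hG hg₁'.continuous)]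
    refine hsub (fun x => ?_) (fun x hx => by simp [hout x hx])
      ((hg.mul hu.c1.continuous).sub (hg₁'.continuous.mul hu.c1.continuous))
    rw [← sub_mul, abs_mul, abs_of_nonneg (hu.mem x).1]
    refine (mul_le_of_le_one_right (abs_nonneg _) (hu.mem x).2).trans ?_
    rw [abs_sub_comm, ← Real.dist_eq]
    exact (hd x).le
  have hP := (hvar t ht htt1 X hB (fun x => g₁ x * f x) (hg₁'.mul hf.c1) hg₁c.mul_right).2
    (fun s => s) continuous_id rfl
  have hmid : |(∫ x, g₁ x * move f X t x ∂vol G) -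
      ∫ x, g₁ (x + t • X x) * f (x + t • X x) ∂vol G| ≤ ε * V := by
    have hc : Continuous fun x => g₁ (x + t • X x) :=
      hg₁'.continuous.comp (continuous_id.add (hB.1.continuous.const_smul t))
    rw [show (fun x => g₁ (x + t • X x) * f (x + t • X x)) =
        fun x => g₁ (x + t • X x) * move f X t x from rfl,
      ← integral_sub (hm.integrable hG hg₁'.continuous) (hm.integrable hG hc)]
    refine hsub (fun x => ?_) (fun x hx => ?_)
      ((hg₁'.continuous.mul hm.c1.continuous).sub (hc.mul hm.c1.continuous))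
    · rw [← sub_mul, abs_mul, abs_of_nonneg (hm.mem x).1]
      refine (mul_le_of_le_one_right (abs_nonneg _) (hm.mem x).2).trans ?_
      rw [← Real.dist_eq]
      refine (hd' ?_).le
      rw [dist_eq_norm, sub_add_cancel_left, norm_neg, norm_smul, Real.norm_eq_abs,
        abs_of_pos ht]
      calc t * ‖X x‖ ≤ d / (2 * (M + 1)) * M :=
            mul_le_mul htd (hB.2.2.1 x).1 (norm_nonneg _) (by positivity)
        _ < d := by
            rw [div_mul_eq_mul_div, div_lt_iff₀ (by positivity)]
            nlinarith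
    · have : X x = 0 := image_eq_zero_of_notMem_tsupport fun h => hx (Or.inr h)
      simp [this]
  have hbound : ∀ x, |g₁ x * f x| ≤ K.indicator (fun _ => C) x := fun x => by
    by_cases hx : x ∈ K
    · rw [indicator_of_mem hx, abs_mul, abs_of_nonneg (hf.mem x).1]
      exact (mul_le_of_le_one_right (abs_nonneg _) (hf.mem x).2).trans (hC x)
    · simp [hx, hout x hx]
  have hI : ∫ x, |g₁ x * f x| ∂vol G ≤ C * V := by
    refine (integral_mono (hf.integrable hG hg₁'.continuous).abs
      ((integrableOn_const hKc.measure_lt_top.ne).integrable_indicator hKc.measurableSet)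
      hbound).trans_eq ?_
    rw [integral_indicator_const _ hKc.measurableSet, smul_eq_mul, mul_comm]
  have hJ : |∫ x, g₁ x * f x * divg G X x ∂vol G| ≤ C * V * B := by
    refine abs_integral_le_integral_abs.trans ?_
    refine (integral_mono (Core.Mini.integrable_of_supp hG
      ((hg₁'.continuous.mul hf.c1.continuous).mul (continuous_divg hG hB.1))
      hg₁c.mul_right.mul_right).abs
      ((hf.integrable hG hg₁'.continuous).abs.mul_const B) fun x => ?_).trans ?_
    · simp only [Pi.mul_apply]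
      rw [abs_mul]
      exact mul_le_mul_of_nonneg_left (hB' x) (abs_nonneg _)
    · rw [integral_mul_const]
      exact mul_le_mul_of_nonneg_right hI hB0
  have a1 := happ _ hm
  have a2 := happ _ hf
  have e1 : ε * V ≤ δ / 4 := by
    rw [hε, div_mul_eq_mul_div, div_le_iff₀ (by positivity)]
    nlinarith
  have e2 : t * ((B + 1) * C * V) ≤ δ / 4 := by
    rw [le_div_iff₀ (by positivity)] at htδ
    nlinarith
  rw [abs_le] at a1 a2 hP hmid hJ ⊢
  have hI' := mul_le_mul_of_nonneg_left hI ht.le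
  have hJ1 := mul_le_mul_of_nonneg_left hJ.1 ht.le
  have hJ2 := mul_le_mul_of_nonneg_left hJ.2 ht.le
  constructor <;> nlinarith

theorem mass_variation (hG : IsMetric G) {X : E n → E n} {M : ℝ} {ν : ℝ → ℝ}
    (hν : Tendsto ν (𝓝 0) (𝓝 0)) (hXc : HasCompactSupport X)
    (hB : Core.FieldBound (tsupport X) M ν X) {η : E n → ℝ} (hη : Cls η) {ε : ℝ} (hε : 0 < ε) :
    ∃ t₀ : ℝ, 0 < t₀ ∧ ∀ t : ℝ, 0 < t → t ≤ t₀ → ∀ f : E n → ℝ, Cls f →
      |wmass G η (move f X t) - wmass G η f +
        t * ∫ x, f x * divg G (fun y => η y • X y) x ∂vol G| ≤ ε * t := by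
  have := Core.Mini.locallyFinite_vol hG
  set K := tsupport X
  set V := (vol G).real K with hV
  have hV0 : 0 ≤ V := measureReal_nonneg
  set W := ∫ x, η x ∂vol G with hW
  have hW0 : 0 ≤ W := integral_nonneg fun x => (hη.mem x).1
  have hM0 : 0 ≤ M := (norm_nonneg _).trans (hB.2.2.1 0).1
  set g₀ : E n → ℝ := fun x => fderiv ℝ η x (X x) with hg₀
  have hg₀c : Continuous g₀ :=
    (hη.c1.continuous_fderiv one_ne_zero).clm_apply hB.1.continuous
  have hg₀s : HasCompactSupport g₀ := HasCompactSupport.intro hXc fun x hx => by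
    simp [hg₀, image_eq_zero_of_notMem_tsupport hx]
  obtain ⟨t₁, ht₁, hvar⟩ := Core.variationStmt n G hG K hXc M ν hν (ε / (4 * (W + 1)))
    (by positivity)
  obtain ⟨t₂, ht₂, hmv⟩ := const_move hG hν hXc hB hg₀c hg₀s (δ := ε / 4) (by positivity)
  have hDu : UniformContinuous (fderiv ℝ η) :=
    (hη.supp.fderiv ℝ).uniformContinuous_of_continuous (hη.c1.continuous_fderiv one_ne_zero)
  set σ := ε / (4 * (M * V + 1)) with hσ
  have hσ0 : 0 < σ := by positivity
  obtain ⟨d, hd0, hd⟩ := Metric.uniformContinuous_iff.1 hDu σ hσ0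
  refine ⟨min t₁ (min t₂ (d / (2 * (M + 1)))), lt_min ht₁ (lt_min ht₂ (by positivity)),
    fun t ht htt f hf => ?_⟩
  simp only [le_min_iff] at htt
  obtain ⟨htt1, htt2, htd⟩ := htt
  have hm := cls_move hf hB.1 hXc t
  have hψ : ContDiff ℝ 1 fun x => x + t • X x := contDiff_id.add (hB.1.const_smul t)
  have h1 := (hvar t ht htt1 X hB (fun x => η x * f x) (hη.c1.mul hf.c1)
    hη.supp.mul_right).2 (fun s => s) continuous_id rfl
  have habs : ∫ x, |η x * f x| ∂vol G ≤ W := by
    refine integral_mono (hη.integrable_left hG hf.c1.continuous).abs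
      (Core.Mini.integrable_of_supp hG hη.c1.continuous hη.supp) fun x => ?_
    rw [abs_of_nonneg (mul_nonneg (hη.mem x).1 (hf.mem x).1)]
    exact mul_le_of_le_one_right (hη.mem x).1 (hf.mem x).2
  have h2 := hmv t ht htt2 f hf
  have hshift : |(∫ x, η (x + t • X x) * f (x + t • X x) ∂vol G) - wmass G η (move f X t) -
      t * ∫ x, g₀ x * move f X t x ∂vol G| ≤ t * (σ * M * V) := by
    have i1 : Integrable (fun x => η (x + t • X x) * move f X t x) (vol G) :=
      hm.integrable hG (hη.c1.continuous.comp hψ.continuous)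
    have i2 : Integrable (fun x => η x * move f X t x) (vol G) :=
      hm.integrable hG hη.c1.continuous
    have i3 := (hm.integrable hG hg₀c).const_mul t
    rw [← integral_const_mul]
    show |(∫ x, η (x + t • X x) * move f X t x ∂vol G) - (∫ x, η x * move f X t x ∂vol G) - _| ≤ _
    rw [← integral_sub i1 i2, ← integral_sub]
    rotate_left
    · exact i1.sub i2
    · exact i3
    refine abs_integral_le_integral_abs.trans ?_
    refine (integral_mono ((i1.sub i2).sub i3).abs
      ((integrableOn_const hXc.measure_lt_top.ne).integrable_indicator hXc.measurableSet)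
      (g := K.indicator fun _ => t * (σ * M)) fun x => ?_).trans_eq ?_
    · simp only [Pi.sub_apply]
      by_cases hx : x ∈ K
      · rw [indicator_of_mem hx,
          show η (x + t • X x) * move f X t x - η x * move f X t x - t * (g₀ x * move f X t x) =
            (η (x + t • X x) - η x - t * g₀ x) * move f X t x by ring, abs_mul,
          abs_of_nonneg (hm.mem x).1]
        refine (mul_le_of_le_one_right (abs_nonneg _) (hm.mem x).2).trans ?_
        have hyd : ‖t • X x‖ ≤ d / (2 * (M + 1)) * M := by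
          rw [norm_smul, Real.norm_eq_abs, abs_of_pos ht]
          exact mul_le_mul htd (hB.2.2.1 x).1 (norm_nonneg _) (by positivity)
        have hlt : d / (2 * (M + 1)) * M < d := by
          rw [div_mul_eq_mul_div, div_lt_iff₀ (by positivity)]
          nlinarith
        have hmvt := (convex_closedBall x ‖t • X x‖).norm_image_sub_le_of_norm_fderiv_le'
          (𝕜 := ℝ) (fun y _ => hη.c1.differentiable one_ne_zero y) (φ := fderiv ℝ η x) (C := σ)
          (fun y hy => by
            rw [← dist_eq_norm]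
            exact (hd ((mem_closedBall.1 hy).trans_lt (hyd.trans_lt hlt))).le)
          (mem_closedBall_self (norm_nonneg _))
          (show x + t • X x ∈ closedBall x ‖t • X x‖ by
            rw [mem_closedBall, dist_eq_norm, add_sub_cancel_left])
        rw [add_sub_cancel_left, map_smul, smul_eq_mul, Real.norm_eq_abs, norm_smul,
          Real.norm_eq_abs, abs_of_pos ht] at hmvt
        refine hmvt.trans ?_
        rw [show t * (σ * M) = σ * (t * M) by ring]
        exact mul_le_mul_of_nonneg_left (mul_le_mul_of_nonneg_left (hB.2.2.1 x).1 ht.le) hσ0.le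
      · rw [indicator_of_notMem hx]
        simp [hg₀, image_eq_zero_of_notMem_tsupport hx]
    · rw [integral_indicator_const _ hXc.measurableSet, smul_eq_mul, ← hV]
      ring
  have hsplit : ∫ x, f x * divg G (fun y => η y • X y) x ∂vol G =
      (∫ x, η x * f x * divg G X x ∂vol G) + ∫ x, g₀ x * f x ∂vol G := by
    have i4 : Integrable (fun x => η x * f x * divg G X x) (vol G) :=
      Core.Mini.integrable_of_supp hG
        ((hη.c1.continuous.mul hf.c1.continuous).mul (continuous_divg hG hB.1))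
        hη.supp.mul_right.mul_right
    rw [← integral_add i4 (hf.integrable hG hg₀c)]
    refine integral_congr_ae (ae_of_all _ fun x => ?_)
    dsimp only
    rw [divg_smul hη.c1 hB.1]
    simp only [hg₀]
    ring
  rw [hsplit]
  have e1 : ε / (4 * (W + 1)) * t * ∫ x, |η x * f x| ∂vol G ≤ ε / 4 * t := by
    refine (mul_le_mul_of_nonneg_left habs (by positivity)).trans ?_
    rw [div_mul_eq_mul_div, div_mul_eq_mul_div, div_mul_eq_mul_div, div_le_div_iff₀
      (by positivity) (by norm_num)]
    nlinarith [mul_pos hε ht]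
  have e2 : σ * M * V ≤ ε / 4 := by
    rw [hσ, mul_assoc, div_mul_eq_mul_div, div_le_iff₀ (by positivity)]
    nlinarith
  change |_ - ∫ x, η x * f x ∂vol G + _| ≤ _ at h1
  simp only [wmass] at hshift ⊢
  rw [abs_le] at h1 h2 hshift ⊢
  have := mul_le_mul_of_nonneg_left e2 ht.le
  have := mul_le_mul_of_nonneg_left h2.1 ht.le
  have := mul_le_mul_of_nonneg_left h2.2 ht.le
  constructor <;> nlinarith

theorem step_le (hG : IsMetric G) {e : ℝ} (hmono : Monotone (profE n e)) {η : E n → ℝ}
    {f : ℕ → E n → ℝ} (A : Almost G e η f) (k : ℕ) {X : E n → E n} (hX : ContDiff ℝ 1 X)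
    (hXc : HasCompactSupport X) {C ε t : ℝ} (hC : ∀ x, |divg G X x| ≤ C) (ht : 0 < t)
    {I J : ℝ} (h1 : |tvar G (move (f k) X t) - tvar G (f k) + t * I| ≤ ε * t * tvar G (f k))
    (h2 : |(∫ x, f k (x + t • X x) * (1 - f k (x + t • X x)) ∂vol G) -
        (∫ x, f k x * (1 - f k x) ∂vol G) +
        t * ∫ x, f k x * (1 - f k x) * divg G X x ∂vol G| ≤
      ε * t * ∫ x, |f k x * (1 - f k x)| ∂vol G)
    (h3 : |wmass G η (move (f k) X t) - wmass G η (f k) + t * J| ≤ ε * t) :
    t * I ≤ ε * t * tvar G (f k) + (ε + C) * t * (A.L k * midv G (f k)) + A.ε k +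
      profE n e (wmass G η (f k)) - profE n e (wmass G η (f k) - t * J - ε * t) := by
  have hf := A.cls k
  have h0 := almost_le A k (cls_move hf hX hXc t)
  have hmn : ∀ x, 0 ≤ f k x * (1 - f k x) := fun x =>
    mul_nonneg (hf.mem x).1 (sub_nonneg.2 (hf.mem x).2)
  have hmi : Integrable (fun x => f k x * (1 - f k x)) (vol G) :=
    Core.Mini.integrable_of_supp hG
      (hf.c1.continuous.mul (continuous_const.sub hf.c1.continuous)) hf.supp.mul_right
  have hdi : Integrable (fun x => f k x * (1 - f k x) * divg G X x) (vol G) :=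
    Core.Mini.integrable_of_supp hG
      ((hf.c1.continuous.mul (continuous_const.sub hf.c1.continuous)).mul
        (continuous_divg hG hX)) hf.supp.mul_right.mul_right
  have hdv : |∫ x, f k x * (1 - f k x) * divg G X x ∂vol G| ≤ midv G (f k) * C := by
    refine abs_integral_le_integral_abs.trans ?_
    rw [midv, ← integral_mul_const]
    refine integral_mono hdi.abs (hmi.mul_const C) fun x => ?_
    rw [abs_mul, abs_of_nonneg (hmn x)]
    exact mul_le_mul_of_nonneg_left (hC x) (hmn x)
  simp only [abs_of_nonneg (hmn _)] at h2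
  have hLm : A.L k * (midv G (move (f k) X t) - midv G (f k)) ≤
      (ε + C) * t * (A.L k * midv G (f k)) := by
    have : midv G (move (f k) X t) - midv G (f k) ≤ (ε + C) * t * midv G (f k) := by
      rw [abs_le] at h2 hdv
      simp only [midv, move] at hdv ⊢
      have := mul_le_mul_of_nonneg_left hdv.1 ht.le
      linarith [h2.2]
    refine (mul_le_mul_of_nonneg_left this (zero_le_one.trans (A.L_one k))).trans_eq ?_
    ring
  rw [abs_le] at h1 h3
  have hp := hmono (show wmass G η (f k) - t * J - ε * t ≤ wmass G η (move (f k) X t) by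
    linarith [h3.1])
  linarith [h1.2]

theorem limit_le {e : ℝ} (hcont : Continuous (profE n e)) (hmono : Monotone (profE n e))
    {η : E n → ℝ} (hη : Cls η) {f : ℕ → E n → ℝ} (A : Almost G e η f) (P : Pre G f)
    {I J : ℕ → ℝ} {a b B C ε t : ℝ} (hI : Tendsto I P.l (𝓝 a)) (hJ : Tendsto J P.l (𝓝 b))
    (hB : ∀ k, tvar G (f k) ≤ B) (hε : 0 < ε) (ht : 0 < t)
    (hk : ∀ k, t * I k ≤ ε * t * tvar G (f k) + (ε + C) * t * (A.L k * midv G (f k)) + A.ε k +
      profE n e (wmass G η (f k)) - profE n e (wmass G η (f k) - t * J k - ε * t)) :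
    t * a ≤ ε * t * (B + 1) + profE n e (wmass G η P.g) -
      profE n e (wmass G η P.g - t * (b + 2 * ε)) := by
  have hw := tendsto_wmass P hη
  have h1 : Tendsto (fun k => ε * t * tvar G (f k) + (ε + C) * t * (A.L k * midv G (f k)) +
      A.ε k + profE n e (wmass G η (f k))) P.l
      (𝓝 (ε * t * P.A + (ε + C) * t * 0 + 0 + profE n e (wmass G η P.g))) :=
    (((P.tvar_lim.const_mul _).add ((A.mid_lim.mono_left P.le).const_mul _)).add
      (A.ε_lim.mono_left P.le)).add ((hcont.tendsto _).comp hw)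
  have h2 : Tendsto (fun k => profE n e (wmass G η (f k) - t * J k - ε * t)) P.l
      (𝓝 (profE n e (wmass G η P.g - t * b - ε * t))) :=
    (hcont.tendsto _).comp ((hw.sub (hJ.const_mul t)).sub_const (ε * t))
  have hlim := le_of_tendsto_of_tendsto (hI.const_mul t) (h1.sub h2) (Eventually.of_forall hk)
  have hA := mul_le_mul_of_nonneg_left (le_of_tendsto P.tvar_lim (Eventually.of_forall hB))
    (mul_pos hε ht).le
  have hm2 := hmono (show wmass G η P.g - t * (b + 2 * ε) ≤ wmass G η P.g - t * b - ε * t by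
    nlinarith)
  nlinarith [mul_pos hε ht]

theorem slope_le {F : ℝ → ℝ} {h₁ W a b B : ℝ} (hder : HasDerivAt F h₁ W)
    (key : ∀ ε, 0 < ε → ∀ᶠ t in 𝓝[>] (0 : ℝ),
      t * a ≤ ε * t * (B + 1) + F W - F (W - t * (b + 2 * ε))) : a ≤ h₁ * b := by
  have hlim : ∀ ε, 0 < ε → a ≤ ε * (B + 1) + h₁ * (b + 2 * ε) := by
    intro ε hε
    have h := hder.comp_of_eq (0 : ℝ)
      (((hasDerivAt_id (0 : ℝ)).mul_const (b + 2 * ε)).const_sub W) (by simp)
    have hs := (hasDerivAt_iff_tendsto_slope.1 h).mono_left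
      (nhdsWithin_mono (0 : ℝ) (fun t ht => ne_of_gt ht : Ioi (0 : ℝ) ⊆ {0}ᶜ))
    refine le_of_tendsto_of_tendsto tendsto_const_nhds
      ((tendsto_const_nhds (x := ε * (B + 1))).sub hs) ?_ |>.trans_eq (by ring)
    filter_upwards [key ε hε, self_mem_nhdsWithin] with t h1 (ht : 0 < t)
    simp only [slope_def_field, Function.comp, id, zero_mul, sub_zero]
    rw [le_sub_iff_add_le, ← le_sub_iff_add_le', div_le_iff₀ ht]
    linarith
  refine le_of_forall_pos_le_add fun δ hδ => ?_
  set c := |B + 1| + 2 * |h₁| + 1 with hc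
  have hc0 : 0 < c := by positivity
  have h1 := hlim (δ / c) (div_pos hδ hc0)
  have h2 : δ / c * (B + 1) + h₁ * (2 * (δ / c)) ≤ δ / c * c := by
    rw [show δ / c * (B + 1) + h₁ * (2 * (δ / c)) = δ / c * (B + 1 + 2 * h₁) by ring]
    refine mul_le_mul_of_nonneg_left ?_ (div_nonneg hδ.le hc0.le)
    rw [hc]
    linarith [le_abs_self (B + 1), le_abs_self h₁]
  rw [div_mul_cancel₀ _ hc0.ne'] at h2
  linarith

theorem one_sided (hP : ProfStmt) (hF : FluxStmt) {e : ℝ} (hn : 2 ≤ n) (he : 0 ≤ e)
    (hG : IsMetric G) {η : E n → ℝ} (hη : Cls η) {f : ℕ → E n → ℝ} (A : Almost G e η f)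
    (P : Pre G f) {h₁ : ℝ} (hder : HasDerivAt (profE n e) h₁ (wmass G η P.g))
    {X : E n → E n} (hX : ContDiff ℝ 1 X) (hXc : HasCompactSupport X) :
    ∫ p, divT G X p ∂P.μ ≤ ∫ p, h₁ * η p.1 * G p.1 (X p.1) p.2 ∂P.μ := by
  obtain ⟨hcont, hmono, -, -⟩ := hP n e hn he
  obtain ⟨M, ν, -, hν, hB⟩ := exists_fieldBound hX hXc
  have hZ1 : ContDiff ℝ 1 fun y => η y • X y := hη.c1.smul hX
  have hZc : HasCompactSupport fun y => η y • X y :=
    HasCompactSupport.intro hXc fun x hx => by simp [image_eq_zero_of_notMem_tsupport hx]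
  have hrhs : ∫ p, h₁ * η p.1 * G p.1 (X p.1) p.2 ∂P.μ =
      h₁ * ∫ p, η p.1 * G p.1 (X p.1) p.2 ∂P.μ := by
    rw [← integral_const_mul]
    simp only [mul_assoc]
  have hblim : Tendsto (fun k => ∫ x, f k x * divg G (fun y => η y • X y) x ∂vol G) P.l
      (𝓝 (∫ p, η p.1 * G p.1 (X p.1) p.2 ∂P.μ)) := by
    have h := P.g_lim _ (continuous_divg hG hZ1)
      (HasCompactSupport.intro hZc fun x hx => divg_eq_zero hx)
    have e1 := hF n G hG f A.cls P _ hZ1 hZc
    simp only [map_smul, smul_apply, smul_eq_mul] at e1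
    simp only [mul_comm (divg G _ _)] at h
    rw [e1] at h
    exact h
  have hfe : ∀ k x, divTan G (f k) X x = divT G X (x, normal G (f k) x) := fun k x => by
    simp only [divTan, divT]
  have halim : Tendsto (fun k => ∫ x, divTan G (f k) X x ∂surf G (f k)) P.l
      (𝓝 (∫ p, divT G X p ∂P.μ)) := by
    simp only [hfe]
    exact tendsto_surf hG A.cls P (continuous_divT hG hX) hXc fun p hp => by
      simp [divT, divg_eq_zero hp, covd_eq_zero hp]
  obtain ⟨B, hBd⟩ := A.bounded
  obtain ⟨C, hC⟩ := (HasCompactSupport.intro hXc fun x hx => divg_eq_zero hx :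
    HasCompactSupport (divg G X)).exists_bound_of_continuous (continuous_divg hG hX)
  rw [hrhs]
  refine slope_le hder (B := B) fun ε hε => ?_
  obtain ⟨t₁, ht₁, hvar⟩ := Core.variationStmt n G hG (tsupport X) hXc M ν hν ε hε
  obtain ⟨t₂, ht₂, hmass⟩ := mass_variation hG hν hXc hB hη hε
  filter_upwards [Ioc_mem_nhdsGT (lt_min ht₁ ht₂)] with t ht
  obtain ⟨ht0, htt⟩ := ht
  rw [le_min_iff] at htt
  refine limit_le hcont hmono hη A P halim hblim hBd hε ht0 (C := C) fun k => ?_
  obtain ⟨h1, h2⟩ := hvar t ht0 htt.1 X hB (f k) (A.cls k).c1 (A.cls k).supp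
  exact step_le hG hmono A k hX hXc (fun x => hC x) ht0 h1
    (h2 (fun s => s * (1 - s)) (continuous_id.mul (continuous_const.sub continuous_id)) (by simp))
    (hmass t ht0 htt.2 (f k) (A.cls k))

theorem firstStmt (hP : ProfStmt) (hF : FluxStmt) : FirstStmt := by
  intro n G e hn he hG η hη f A P h₁ _ hder X hX hXc
  refine le_antisymm (one_sided hP hF hn he hG hη A P hder hX hXc) ?_
  have h := one_sided hP hF hn he hG hη A P hder hX.neg hXc.neg
  have e0 : (fun x => -X x) = -X := rfl
  have e1 : ∀ x w, covd G (-X) x w = -covd G X x w := fun x w => by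
    simp [covd, fderiv_neg, ← chrL_apply]
    abel
  have e2 : ∀ p, divT G (-X) p = -divT G X p := fun p => by
    simp [divT, divg, e1]
    ring
  simp only [e0, e2, map_neg, neg_apply, mul_neg, integral_neg, neg_le_neg_iff] at h
  exact h

end

end Vale.Agent.P219.CH.Full.Minimiser
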