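import Vale.Agent.P219.CH.Full.Minimiser.Cut
import Vale.Agent.P219.CH.Full.Statements

/-!
P219, the minimiser module: both sides of the weak limit have positive volume density.
-/

namespace Vale.Agent.P219.CH.Full.Minimiser

open MeasureTheory Filter Topology Set Metric
open scoped ContDiff RealInnerProductSpace

noncomputable section

set_option maxSynthPendingDepth 3

variable {n : ℕ} {G : Coeff n}

theorem integrable_test {φ g : E n → ℝ} (hφ : Cls φ) (hg : Measurable g)
    (hg1 : ∀ x, g x ∈ Icc (0 : ℝ) 1) : Integrable fun x => φ x * g x :=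
  (hφ.c1.continuous.integrable_of_hasCompactSupport hφ.supp).mul_bdd (c := 1)
    hg.aestronglyMeasurable (Eventually.of_forall fun x => by
      rw [Real.norm_eq_abs, abs_of_nonneg (hg1 x).1]; exact (hg1 x).2)

/-- Lebesgue integrals against test functions pass to the limit. -/
theorem tendsto_leb (hG : IsMetric G) {f : ℕ → E n → ℝ} (hf : ∀ k, Cls (f k)) (P : Pre G f)
    (b : Bool) {φ : E n → ℝ} (hφ : Cls φ) :
    Tendsto (fun k => ∫ x, φ x * side b (f k) x) P.l (𝓝 (∫ x, φ x * side b P.g x)) := by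
  have h := P.g_lim (fun x => φ x / dens G x)
    (hφ.c1.continuous.div (Core.Mini.continuous_dens hG) fun x => (hG.dens_pos x).ne')
    (HasCompactSupport.intro hφ.supp fun x hx => by simp [image_eq_zero_of_notMem_tsupport hx])
  have e : ∀ u : E n → ℝ, ∫ x, φ x / dens G x * u x ∂vol G = ∫ x, φ x * u x := fun u => by
    rw [Core.Field.integral_vol hG]
    refine integral_congr_ae (ae_of_all _ fun x => ?_)
    have := (hG.dens_pos x).ne'
    field_simp
  simp only [e] at h
  cases b
  · exact h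
  · have i0 : Integrable φ := hφ.c1.continuous.integrable_of_hasCompactSupport hφ.supp
    have e1 : ∀ u : E n → ℝ, Measurable u → (∀ x, u x ∈ Icc (0 : ℝ) 1) →
        ∫ x, φ x * side true u x = (∫ x, φ x) - ∫ x, φ x * u x := fun u hu hu1 => by
      rw [← integral_sub i0 (integrable_test hφ hu hu1)]
      exact integral_congr_ae (ae_of_all _ fun x => by simp [side]; ring)
    rw [e1 _ P.g_meas P.g_mem]
    simp only [e1 _ (hf _).c1.continuous.measurable (hf _).mem]
    exact h.const_sub _

theorem cutR_le_indicator {y : E n} {s w t : ℝ} (hs : 0 ≤ s) (hw : 0 < w) (ht : s + w ≤ t)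
    (x : E n) : cutR y s w x ≤ (closedBall y t).indicator (fun _ => 1) x := by
  by_cases h : x ∈ closedBall y t
  · rw [indicator_of_mem h]; exact (cutR_mem y s w x).2
  · rw [indicator_of_notMem h]
    rw [mem_closedBall, dist_eq_norm, not_le] at h
    exact (cutR_eq_zero hs hw (ht.trans h.le)).le

theorem integral_surf (hG : IsMetric G) {f : E n → ℝ} (hf : ContDiff ℝ 1 f) (φ : E n → ℝ) :
    ∫ x, φ x ∂surf G f = ∫ x, φ x * gnorm G x (grad G f x) ∂vol G := by
  rw [surf, integral_withDensity_eq_integral_toReal_smul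
    (continuous_gg hG hf).measurable.ennreal_ofReal (ae_of_all _ fun x => ENNReal.ofReal_lt_top)]
  refine integral_congr_ae (ae_of_all _ fun x => ?_)
  simp [ENNReal.toReal_ofReal (gnorm_nonneg G x (grad G f x))]
  ring

/-- Among `N` consecutive shells one carries at most the average. -/
theorem exists_shell (y : E n) (s : ℝ) {w : ℝ} (hw : 0 < w) {N : ℕ} (hN : 0 < N) {h : E n → ℝ}
    (hi : Integrable h) (h0 : ∀ x, 0 ≤ h x) :
    ∃ j < N, (∫ x, (shell y (s + j * w) w).indicator h x) ≤ (∫ x, h x) / N := by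
  have hint : ∀ j ∈ Finset.range N, Integrable ((shell y (s + j * w) w).indicator h) := fun j _ =>
    hi.indicator (measurableSet_shell _ _ _)
  have hsum : ∑ j ∈ Finset.range N, ∫ x, (shell y (s + j * w) w).indicator h x ≤ ∫ x, h x := by
    rw [← integral_finsetSum _ hint]
    refine integral_mono (integrable_finsetSum _ hint) hi fun x => ?_
    dsimp only
    by_cases hx : ∃ j ∈ Finset.range N, x ∈ shell y (s + j * w) w
    · obtain ⟨j, hj, hxj⟩ := hx
      rw [Finset.sum_eq_single_of_mem j hj, indicator_of_mem hxj]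
      intro i _ hij
      refine indicator_of_notMem (fun hxi => hij ?_) _
      simp only [shell, mem_ofPred_eq] at hxj hxi
      have h1 : (i : ℝ) < j + 1 := by nlinarith
      have h2 : (j : ℝ) < i + 1 := by nlinarith
      have h1' : i < j + 1 := by exact_mod_cast h1
      have h2' : j < i + 1 := by exact_mod_cast h2
      omega
    · rw [not_exists] at hx
      rw [Finset.sum_eq_zero fun j hj => indicator_of_notMem (fun h' => hx j ⟨hj, h'⟩) _]
      exact h0 x
  obtain ⟨j, hj, hle⟩ := Finset.exists_le_of_sum_le (s := Finset.range N)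
    (g := fun _ => (∫ x, h x) / N) ⟨0, Finset.mem_range.2 hN⟩
    (hsum.trans_eq (by simp [mul_div_cancel₀ _ (Nat.cast_ne_zero.2 hN.ne' : (N : ℝ) ≠ 0)]))
  exact ⟨j, Finset.mem_range.1 hj, hle⟩

/-! ### The estimates for one cutoff -/

/-- The price of cutting: the new boundary, the intermediate values and the lost mass. -/
def cost (G : Coeff n) (L K : ℝ) (u χ : E n → ℝ) : ℝ :=
  (∫ x, u x * gnorm G x (grad G χ x) ∂vol G) + L * (∫ x, u x * (χ x * (1 - χ x)) ∂vol G) +
    K * ∫ x, χ x * u x ∂vol G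

theorem integrable_gradSide (hG : IsMetric G) {u χ : E n → ℝ} (hu : Continuous u) (hχ : Cls χ) :
    Integrable (fun x => u x * gnorm G x (grad G χ x)) (vol G) := by
  refine Core.Mini.integrable_of_supp hG (hu.mul (continuous_gg hG hχ.c1))
    (HasCompactSupport.mul_left (HasCompactSupport.intro hχ.supp fun x hx => ?_))
  simp [gnorm, Core.Mini.grad_eq_zero hx]

theorem integrable_midSide (hG : IsMetric G) {u χ : E n → ℝ} (hu : Continuous u) (hχ : Cls χ) :
    Integrable (fun x => u x * (χ x * (1 - χ x))) (vol G) :=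
  Core.Mini.integrable_of_supp hG
    (hu.mul (hχ.c1.continuous.mul (continuous_const.sub hχ.c1.continuous)))
    hχ.supp.mul_right.mul_left

/-- A cutoff in a small ball touches little mass. -/
theorem vol_cut_le (hG : IsMetric G) (hn : 1 ≤ n) {u χ : E n → ℝ} (hu : Continuous u)
    (hu1 : ∀ x, u x ≤ 1) (hχ : Cls χ) {y : E n} {r C : ℝ} (hr : 0 ≤ r) (hr1 : r ≤ 1)
    (hC0 : 0 ≤ C) (hC : ∀ x ∈ closedBall y r, dens G x ≤ C) (hs : tsupport χ ⊆ closedBall y r) :
    ∫ x, χ x * u x ∂vol G ≤ C * (volume : Measure (E n)).real (closedBall 0 1) * r := by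
  have hbn : (volume : Measure (E n)).real (closedBall y r) ≤
      r * (volume : Measure (E n)).real (closedBall 0 1) := by
    rw [measureReal_def, Measure.addHaar_closedBall' volume y hr, ENNReal.toReal_mul,
      ENNReal.toReal_ofReal (by positivity), finrank_euclideanSpace_fin]
    exact mul_le_mul_of_nonneg_right (pow_le_of_le_one hr hr1 (by omega)) ENNReal.toReal_nonneg
  rw [Core.Field.integral_vol hG]
  calc ∫ x, dens G x * (χ x * u x) ≤ ∫ x, (closedBall y r).indicator (fun _ => C) x := by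
        refine integral_mono (Continuous.integrable_of_hasCompactSupport
          ((Core.Mini.continuous_dens hG).mul (hχ.c1.continuous.mul hu))
          hχ.supp.mul_right.mul_left)
          ((integrableOn_const (isCompact_closedBall y r).measure_lt_top.ne).integrable_indicator
            measurableSet_closedBall) fun x => ?_
        by_cases hx : x ∈ closedBall y r
        · rw [indicator_of_mem hx]
          have h1 : χ x * u x ≤ 1 := (mul_le_of_le_one_right (hχ.mem x).1 (hu1 x)).trans (hχ.mem x).2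
          exact (mul_le_of_le_one_right (hG.dens_pos x).le h1).trans (hC x hx)
        · rw [indicator_of_notMem hx]
          simp [image_eq_zero_of_notMem_tsupport fun h => hx (hs h)]
    _ = (volume : Measure (E n)).real (closedBall y r) * C := by
        rw [integral_indicator_const _ measurableSet_closedBall, smul_eq_mul]
    _ ≤ r * (volume : Measure (E n)).real (closedBall 0 1) * C :=
        mul_le_mul_of_nonneg_right hbn hC0
    _ = _ := by ring

/-- The price in a shell. -/
theorem cost_le (hG : IsMetric G) {u φ : E n → ℝ} (hu : ContDiff ℝ 1 u)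
    (hu01 : ∀ x, u x ∈ Icc (0 : ℝ) 1) (hφ : Cls φ) {y : E n} {s w C C₀ L K : ℝ}
    (hs : 0 ≤ s) (hw : 0 < w) (hC₀ : ∀ z, |deriv Real.smoothTransition z| ≤ C₀) (hC0 : 0 ≤ C)
    (hC : ∀ x ∈ closedBall y (s + w), dens G x ≤ C ∧ φ x = 1 ∧
      ∀ v : E n → ℝ, gnorm G x (grad G v x) ≤ C * ‖fderiv ℝ v x‖)
    (hL : 0 ≤ L) (hK : 0 ≤ K) :
    cost G L K u (cutR y s w) ≤
      C * (2 * C * C₀ / w + L) * (∫ x, (shell y s w).indicator (fun z => φ z * u z) x) +
        C * K * ∫ x, φ x * u x := by
  set χ := cutR y s w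
  set h := fun x => φ x * u x with hh
  have hχ : Cls χ := cls_cutR hs hw y
  have hC₀0 : 0 ≤ C₀ := (abs_nonneg _).trans (hC₀ 0)
  set c := 2 * C * C₀ / w + L
  have hc : 0 ≤ c := by positivity
  have hh0 : ∀ x, 0 ≤ h x := fun x => mul_nonneg (hφ.mem x).1 (hu01 x).1
  have hhi : Integrable h := integrable_test hφ hu.continuous.measurable hu01
  have his := hhi.indicator (measurableSet_shell y s w)
  have hR : ∀ x, 0 ≤ c * (shell y s w).indicator h x + K * h x := fun x =>
    add_nonneg (mul_nonneg hc (indicator_nonneg (fun z _ => hh0 z) x)) (mul_nonneg hK (hh0 x))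
  have ig := integrable_gradSide hG hu.continuous hχ
  have ic := integrable_midSide hG hu.continuous hχ
  have iχ : Integrable (fun x => χ x * u x) (vol G) := hχ.integrable_left hG hu.continuous
  have e1 : cost G L K u χ = ∫ x, dens G x *
      (u x * gnorm G x (grad G χ x) + L * (u x * (χ x * (1 - χ x))) + K * (χ x * u x)) := by
    rw [cost, ← Core.Field.integral_vol hG, integral_add (ig.fun_add (ic.const_mul L))
      (iχ.const_mul K), integral_add ig (ic.const_mul L), integral_const_mul, integral_const_mul]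
  have e2 : C * c * (∫ x, (shell y s w).indicator h x) + C * K * ∫ x, h x =
      ∫ x, C * (c * (shell y s w).indicator h x + K * h x) := by
    rw [integral_const_mul, integral_add (his.const_mul c) (hhi.const_mul K), integral_const_mul,
      integral_const_mul]
    ring
  rw [e1, e2]
  refine integral_mono_of_nonneg (ae_of_all _ fun x => ?_)
    (((his.const_mul c).fun_add (hhi.const_mul K)).const_mul C) (ae_of_all _ fun x => ?_)
  · exact mul_nonneg (hG.dens_pos x).le (add_nonneg (add_nonneg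
      (mul_nonneg (hu01 x).1 (gnorm_nonneg _ _ _))
      (mul_nonneg hL (mul_nonneg (hu01 x).1
        (mul_nonneg (hχ.mem x).1 (sub_nonneg.2 (hχ.mem x).2)))))
      (mul_nonneg hK (mul_nonneg (hχ.mem x).1 (hu01 x).1)))
  show dens G x * _ ≤ C * (c * (shell y s w).indicator h x + K * h x)
  by_cases hx : x ∈ tsupport χ
  · obtain ⟨hd1, hφ1, hd2⟩ := hC x (cutR_supp hs hw hx)
    refine (mul_le_mul_of_nonneg_left ?_ (hG.dens_pos x).le).trans
      (mul_le_mul_of_nonneg_right hd1 (hR x))
    have hun : u x = h x := by simp [hh, hφ1]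
    have hg := mul_le_mul_of_nonneg_left ((hd2 χ).trans (mul_le_mul_of_nonneg_left
      (norm_fderiv_cutR hC₀ hs hw) hC0)) (hu01 x).1
    have hq := mul_le_mul_of_nonneg_left (mul_le_mul_of_nonneg_left
      (cutR_shell (y := y) (x := x) hs hw) (hu01 x).1) hL
    have hcu : K * (χ x * u x) ≤ K * h x := mul_le_mul_of_nonneg_left
      (hun ▸ mul_le_of_le_one_left (hu01 x).1 (hχ.mem x).2) hK
    refine (add_le_add (add_le_add hg hq) hcu).trans_eq ?_
    by_cases hxs : x ∈ shell y s w
    · simp only [c, indicator_of_mem hxs, ← hun]; ring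
    · simp only [indicator_of_notMem hxs]; ring
  · simp only [gnorm, Core.Mini.grad_eq_zero hx, image_eq_zero_of_notMem_tsupport hx,
      map_zero, Real.sqrt_zero, mul_zero, zero_mul, add_zero]
    exact mul_nonneg hC0 (hR x)

/-- Almost minimality bounds the boundary inside the cutoff by its price. -/
theorem boundary_le (hG : IsMetric G) {e K ρ : ℝ} {η : E n → ℝ} {f : ℕ → E n → ℝ} (hη : Cls η)
    (A : Almost G e η f) {W : ℝ} (hK : 0 ≤ K)
    (hlin : ∀ t, |t - W| < ρ → |profE n e t - profE n e W| ≤ K * |t - W|) (b : Bool) {χ : E n → ℝ}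
    (hχ : Cls χ) (k : ℕ)
    (hsmall : (∫ x, χ x * side b (f k) x ∂vol G) + |wmass G η (f k) - W| < ρ) :
    ∫ x, χ x * gnorm G x (grad G (f k) x) ∂vol G ≤ cost G (A.L k) K (side b (f k)) χ +
      (|profE n e (wmass G η (f k)) - profE n e W| + K * |wmass G η (f k) - W| + |A.ε k|) := by
  have hf := A.cls k
  have h1 := almost_le A k (cls_punch b hχ hf)
  have h2 := tvar_punch_le hG b hχ hf
  have h3 := mul_le_mul_of_nonneg_left (midv_punch_le hG b hχ hf) (zero_le_one.trans (A.L_one k))
  have h5 : |wmass G η (punch b χ (f k)) - W| ≤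
      (∫ x, χ x * side b (f k) x ∂vol G) + |wmass G η (f k) - W| :=
    (abs_sub_le _ (wmass G η (f k)) _).trans (add_le_add (wmass_punch_le hG b hη hχ hf) le_rfl)
  have h6 := (abs_le.1 (hlin _ (lt_of_le_of_lt h5 hsmall))).1
  have h7 := mul_le_mul_of_nonneg_left h5 hK
  have h9 := le_abs_self (profE n e (wmass G η (f k)) - profE n e W)
  have h10 := le_abs_self (A.ε k)
  rw [cost]
  linarith

theorem sq_lower (hG : IsMetric G) {f φ χ : E n → ℝ} (hf : Cls f) (hφ : Cls φ) (hχ : Cls χ)
    (b : Bool) {C : ℝ} (hC0 : 0 ≤ C)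
    (hC : ∀ x, φ x = 0 ∨ χ x = 1 ∧ 1 ≤ C * dens G x) :
    (∫ x, φ x * side b f x) - C * midv G f ≤ ∫ x, (χ x * side b f x) ^ 2 := by
  have hu := (contDiff_side b hf.c1).continuous
  have i1 : Integrable fun x => φ x * side b f x :=
    integrable_test hφ hu.measurable fun x => side_mem b (hf.mem x)
  have i2 : Integrable fun x => C * (dens G x * (f x * (1 - f x))) :=
    (Continuous.integrable_of_hasCompactSupport ((Core.Mini.continuous_dens hG).mul
      (hf.c1.continuous.mul (continuous_const.sub hf.c1.continuous)))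
      hf.supp.mul_right.mul_left).const_mul C
  have i3 : Integrable fun x => (χ x * side b f x) ^ 2 :=
    ((hχ.c1.continuous.mul hu).pow 2).integrable_of_hasCompactSupport
      (HasCompactSupport.intro hχ.supp fun x hx => by simp [image_eq_zero_of_notMem_tsupport hx])
  rw [midv, Core.Field.integral_vol hG, ← integral_const_mul, ← integral_sub i1 i2]
  refine integral_mono (i1.sub i2) i3 fun x => ?_
  show φ x * side b f x - C * (dens G x * (f x * (1 - f x))) ≤ (χ x * side b f x) ^ 2
  rw [← side_mul_one_sub b f x]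
  obtain ⟨hu0, hu1⟩ := side_mem b (hf.mem x)
  have hm : 0 ≤ side b f x * (1 - side b f x) := mul_nonneg hu0 (sub_nonneg.2 hu1)
  rcases hC x with h | ⟨h, hd⟩
  · rw [h, zero_mul]
    nlinarith [sq_nonneg (χ x * side b f x), mul_nonneg hC0 (mul_nonneg (hG.dens_pos x).le hm)]
  · rw [h, one_mul]
    nlinarith [mul_le_mul_of_nonneg_right hd hm, mul_le_of_le_one_left hu0 (hφ.mem x).2]

theorem deriv_upper (hG : IsMetric G) {f χ : E n → ℝ} (hf : Cls f) (hχ : Cls χ) (b : Bool)
    {C : ℝ} (hC0 : 0 ≤ C)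
    (hC : ∀ x ∈ tsupport χ, 1 ≤ C * dens G x ∧
      ∀ v : E n → ℝ, ‖fderiv ℝ v x‖ ≤ C * gnorm G x (grad G v x)) :
    ∫ x, ‖fderiv ℝ (fun z => χ z * side b f z) x‖ ≤ C ^ 2 *
      ((∫ x, χ x * gnorm G x (grad G f x) ∂vol G) +
        ∫ x, side b f x * gnorm G x (grad G χ x) ∂vol G) := by
  have hu := contDiff_side b hf.c1
  have if' : Integrable (fun x => χ x * gnorm G x (grad G f x)) (vol G) :=
    hχ.integrable_left hG (continuous_gg hG hf.c1)
  rw [← integral_add if' (integrable_gradSide hG hu.continuous hχ), Core.Field.integral_vol hG,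
    ← integral_const_mul]
  refine integral_mono ((((hχ.c1.mul hu).continuous_fderiv one_ne_zero).norm).integrable_of_hasCompactSupport
    (hχ.supp.mul_right.fderiv ℝ).norm) ?_ fun x => ?_
  · refine (Continuous.integrable_of_hasCompactSupport ((Core.Mini.continuous_dens hG).mul
      ((hχ.c1.continuous.mul (continuous_gg hG hf.c1)).add
        (hu.continuous.mul (continuous_gg hG hχ.c1))))
      (HasCompactSupport.intro hχ.supp fun z hz => ?_)).const_mul _
    simp [gnorm, Core.Mini.grad_eq_zero hz, image_eq_zero_of_notMem_tsupport hz]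
  · show ‖fderiv ℝ (fun z => χ z * side b f z) x‖ ≤ C ^ 2 * (dens G x *
      (χ x * gnorm G x (grad G f x) + side b f x * gnorm G x (grad G χ x)))
    have hu0 := (side_mem b (hf.mem x)).1
    have hB : 0 ≤ χ x * gnorm G x (grad G f x) + side b f x * gnorm G x (grad G χ x) :=
      add_nonneg (mul_nonneg (hχ.mem x).1 (gnorm_nonneg _ _ _))
        (mul_nonneg hu0 (gnorm_nonneg _ _ _))
    by_cases hx : x ∈ tsupport χ
    · obtain ⟨hd1, hd2⟩ := hC x hx
      have hp := gnorm_grad_mul_le hG (u := χ) (v := side b f) (x := x)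
        (hχ.c1.differentiable one_ne_zero x) (hu.differentiable one_ne_zero x)
      rw [gnorm_grad_side, abs_of_nonneg (hχ.mem x).1, abs_of_nonneg hu0] at hp
      refine (hd2 _).trans ((mul_le_mul_of_nonneg_left hp hC0).trans ?_)
      nlinarith [mul_le_mul_of_nonneg_right hd1 (mul_nonneg hC0 hB)]
    · rw [fderiv_of_notMem_tsupport (𝕜 := ℝ) fun h' => hx (tsupport_mul_subset_left h'), norm_zero]
      exact mul_nonneg (sq_nonneg _) (mul_nonneg (hG.dens_pos x).le hB)

/-- The two estimates of a single cut, along the sequence. -/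
theorem exists_cut (hn : 2 ≤ n) (hG : IsMetric G) {e h₁ : ℝ} {η : E n → ℝ} {f : ℕ → E n → ℝ}
    (hη : Cls η) (A : Almost G e η f) (y : E n) (sd : Bool) {W : ℝ}
    (hd : HasDerivAt (profE n e) h₁ W) :
    ∃ C Q S Kp r₀ ρ : ℝ, 0 ≤ C ∧ 0 ≤ Q ∧ 0 ≤ S ∧ 0 ≤ Kp ∧ 0 < r₀ ∧ 0 < ρ ∧
      ∀ a d : ℝ, 0 ≤ a → 0 < d → a + 3 * d ≤ r₀ → ∀ k, |wmass G η (f k) - W| < ρ →
        let R := Q * ((∫ x, cutR y (a + 2 * d) d x * side sd (f k) x) / (3 * d)) +
          (|profE n e (wmass G η (f k)) - profE n e W| + Kp * |wmass G η (f k) - W| + |A.ε k|)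
        (max ((∫ x, cutR y a d x * side sd (f k) x) - C * midv G (f k)) 0) ^ (n - 1) ≤
            S * (2 * C ^ 2 * R) ^ n ∧ ∫ x, cutR y a d x ∂surf G (f k) ≤ R := by
  obtain ⟨C, hC1, hC⟩ := exists_metric_bound hG (isCompact_closedBall y 1)
  obtain ⟨C₀, hC₀0, hC₀⟩ := exists_deriv_bound
  obtain ⟨S, hS0, hS⟩ := sobolev_sq hn
  set Kp := |h₁| + 1 with hKp
  have hKp0 : 0 ≤ Kp := by positivity
  obtain ⟨ρ, hρ, hlin⟩ : ∃ ρ : ℝ, 0 < ρ ∧
      ∀ t, |t - W| < ρ → |profE n e t - profE n e W| ≤ Kp * |t - W| := by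
    obtain ⟨ρ, hρ, h⟩ := Metric.eventually_nhds_iff.1
      ((hasDerivAt_iff_isLittleO.1 hd).def one_pos)
    refine ⟨ρ, hρ, fun t ht => ?_⟩
    have h' := h (y := t) (by rwa [Real.dist_eq])
    simp only [Real.norm_eq_abs, smul_eq_mul, one_mul] at h'
    have := abs_add_le (profE n e t - profE n e W - (t - W) * h₁) ((t - W) * h₁)
    rw [sub_add_cancel, abs_mul] at this
    rw [hKp]
    linarith
  have hC0 : 0 ≤ C := zero_le_one.trans hC1
  set Ω := (volume : Measure (E n)).real (closedBall (0 : E n) 1)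
  have hΩ0 : 0 ≤ Ω := measureReal_nonneg
  set r₀ := min 1 (ρ / (2 * (C * Ω + 1)))
  have hr₀0 : 0 < r₀ := lt_min one_pos (by positivity)
  have hr₀1 : r₀ ≤ 1 := min_le_left _ _
  have hr₀ρ : C * Ω * r₀ < ρ / 2 := by
    have : r₀ * (2 * (C * Ω + 1)) ≤ ρ := (le_div_iff₀ (by positivity)).1 (min_le_right _ _)
    linarith
  refine ⟨C, C * (6 * C * C₀ + 1 + Kp), S, Kp, r₀, ρ / 2, hC0, by positivity, hS0, hKp0, hr₀0,
    half_pos hρ, fun a d ha hd0 hb k hk => ?_⟩
  intro R
  have hfc : Cls (f k) := A.cls k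
  have hu01 : ∀ x, side sd (f k) x ∈ Icc (0 : ℝ) 1 := fun x => side_mem sd (hfc.mem x)
  have huc := contDiff_side sd hfc.c1
  have hl : Cls (cutR y a d) := cls_cutR ha hd0 y
  have hu : Cls (cutR y (a + 2 * d) d) := cls_cutR (by positivity) hd0 y
  set L := A.L k
  have hL : 1 ≤ L := A.L_one k
  have hL0 : 0 ≤ L := zero_le_one.trans hL
  set N := ⌈L⌉₊ + 1
  have hN0 : (0 : ℝ) < N := by exact_mod_cast Nat.succ_pos _
  have hLN : L ≤ N := (Nat.le_ceil L).trans (by exact_mod_cast Nat.le_succ _)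
  set w := d / N with hw
  have hw0 : 0 < w := by positivity
  have hNw : N * w = d := by rw [hw]; field_simp
  have hh0 : ∀ x, 0 ≤ cutR y (a + 2 * d) d x * side sd (f k) x := fun x =>
    mul_nonneg (hu.mem x).1 (hu01 x).1
  obtain ⟨j, hj, hjle⟩ := exists_shell y (a + d) hw0 (N := N) (Nat.succ_pos _)
    (integrable_test hu huc.continuous.measurable hu01) hh0
  set I := ∫ x, cutR y (a + 2 * d) d x * side sd (f k) x
  have hI0 : 0 ≤ I := integral_nonneg hh0
  set s := a + d + j * w
  have hjN : (j : ℝ) + 1 ≤ N := by exact_mod_cast hj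
  have hs0 : 0 ≤ s := by positivity
  have hsl : a + d ≤ s := le_add_of_nonneg_right (by positivity)
  have hsu : s + w ≤ a + 2 * d := by linarith [mul_le_mul_of_nonneg_right hjN hw0.le]
  have hsb : s + w ≤ r₀ := by linarith
  have hχ : Cls (cutR y s w) := cls_cutR hs0 hw0 y
  have hball : closedBall y (s + w) ⊆ closedBall y 1 :=
    closedBall_subset_closedBall (hsb.trans hr₀1)
  have hT := cost_le hG huc hu01 hu hs0 hw0 hC₀ hC0
    (fun x hx => ⟨(hC x (hball hx)).1, cutR_eq_one (by positivity) hd0 (by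
      rw [mem_closedBall, dist_eq_norm] at hx; linarith), fun v => ((hC x (hball hx)).2.2 v).2⟩)
    hL0 hKp0
  have hvs := vol_cut_le hG (by omega) huc.continuous (fun x => (hu01 x).2) hχ (by linarith)
    (hsb.trans hr₀1) hC0 (fun x hx => (hC x (hball hx)).1) (cutR_supp hs0 hw0)
  have hB := boundary_le hG hη A hKp0 hlin sd hχ k (by
    have : C * Ω * (s + w) ≤ C * Ω * r₀ := mul_le_mul_of_nonneg_left hsb (mul_nonneg hC0 hΩ0)
    linarith)
  have hcost : cost G L Kp (side sd (f k)) (cutR y s w) ≤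
      C * (6 * C * C₀ + 1 + Kp) * (I / (3 * d)) := by
    refine hT.trans ((add_le_add (mul_le_mul_of_nonneg_left hjle (by positivity)) le_rfl).trans ?_)
    have h2 : L / N ≤ 1 := (div_le_one hN0).2 hLN
    have h3 : 3 * d ≤ 1 := by linarith
    have e1 : C * (2 * C * C₀ / w + L) * (I / N) =
        C * (2 * C * C₀ / d + L / N) * I := by
      rw [hw]; field_simp
    have e2 : C * (6 * C * C₀ + 1 + Kp) * (I / (3 * d)) =
        C * (2 * C * C₀ / d + (1 + Kp) / (3 * d)) * I := by
      field_simp; ring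
    have h4 : L / N + Kp ≤ (1 + Kp) / (3 * d) := by
      refine (add_le_add h2 le_rfl).trans ?_
      rw [le_div_iff₀ (by positivity)]
      exact mul_le_of_le_one_right (by positivity) h3
    rw [e1, e2]
    linarith [mul_le_mul_of_nonneg_left h4 (mul_nonneg hC0 hI0)]
  refine ⟨?_, ?_⟩
  · have hv : Cls (fun x => cutR y s w x * side sd (f k) x) := ⟨hχ.c1.mul huc, hχ.supp.mul_right,
      fun x => ⟨mul_nonneg (hχ.mem x).1 (hu01 x).1,
        mul_le_one₀ (hχ.mem x).2 (hu01 x).1 (hu01 x).2⟩⟩
    have hlow := sq_lower hG hfc hl hχ sd hC0 fun x => by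
      by_cases hx : ‖x - y‖ ≤ a + d
      · exact Or.inr ⟨cutR_eq_one hs0 hw0 (hx.trans hsl),
          (hC x (by rw [mem_closedBall, dist_eq_norm]; linarith)).2.1⟩
      · exact Or.inl (cutR_eq_zero ha hd0 (not_le.1 hx).le)
    have hup := deriv_upper hG hfc hχ sd hC0 fun x hx =>
      ⟨(hC x (hball (cutR_supp hs0 hw0 hx))).2.1,
        fun v => ((hC x (hball (cutR_supp hs0 hw0 hx))).2.2 v).1⟩
    have hGu : ∫ x, side sd (f k) x * gnorm G x (grad G (cutR y s w) x) ∂vol G ≤
        cost G L Kp (side sd (f k)) (cutR y s w) := by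
      have h1 : (0 : ℝ) ≤ ∫ x, cutR y s w x * side sd (f k) x ∂vol G :=
        integral_nonneg fun x => mul_nonneg (hχ.mem x).1 (hu01 x).1
      have h2 : (0 : ℝ) ≤ ∫ x, side sd (f k) x * (cutR y s w x * (1 - cutR y s w x)) ∂vol G :=
        integral_nonneg fun x => mul_nonneg (hu01 x).1
          (mul_nonneg (hχ.mem x).1 (sub_nonneg.2 (hχ.mem x).2))
      rw [cost]
      linarith [mul_nonneg hL0 h2, mul_nonneg hKp0 h1]
    have hε0 : 0 ≤ |profE n e (wmass G η (f k)) - profE n e W| +
        Kp * |wmass G η (f k) - W| + |A.ε k| :=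
      add_nonneg (add_nonneg (abs_nonneg _) (mul_nonneg hKp0 (abs_nonneg _))) (abs_nonneg _)
    have hD : ∫ x, ‖fderiv ℝ (fun z => cutR y s w z * side sd (f k) z) x‖ ≤ 2 * C ^ 2 * R := by
      refine hup.trans ?_
      rw [mul_comm 2 (C ^ 2), mul_assoc]
      refine mul_le_mul_of_nonneg_left ?_ (sq_nonneg C)
      simp only [R]
      linarith
    exact (pow_le_pow_left₀ (le_max_right _ _)
      (max_le hlow (integral_nonneg fun x => sq_nonneg _)) _).trans
      ((hS _ hv).trans (mul_le_mul_of_nonneg_left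
        (pow_le_pow_left₀ (integral_nonneg fun x => norm_nonneg _) hD _) hS0))
  · rw [integral_surf hG hfc.c1]
    refine le_trans (integral_mono (hl.integrable_left hG (continuous_gg hG hfc.c1))
      (hχ.integrable_left hG (continuous_gg hG hfc.c1)) fun x => ?_)
      (hB.trans (add_le_add hcost le_rfl))
    refine mul_le_mul_of_nonneg_right ?_ (gnorm_nonneg _ _ _)
    by_cases hx : ‖x - y‖ ≤ s
    · exact (hl.mem x).2.trans (cutR_eq_one hs0 hw0 hx).ge
    · exact (cutR_eq_zero ha hd0 (hsl.trans (not_le.1 hx).le)).trans_le (hχ.mem x).1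

/-- The two estimates for the limit. -/
theorem exists_decay {e h₁ : ℝ} {η : E n → ℝ} {f : ℕ → E n → ℝ} (hn : 2 ≤ n) (hG : IsMetric G)
    (hη : Cls η) (A : Almost G e η f) (P : Pre G f)
    (hd : HasDerivAt (profE n e) h₁ (wmass G η P.g)) (y : E n) (sd : Bool) :
    ∃ K r₀ : ℝ, 0 ≤ K ∧ 0 < r₀ ∧ ∀ a b : ℝ, 0 ≤ a → a < b → b ≤ r₀ →
      (∫ x in closedBall y a, side sd P.g x) ^ (n - 1) ≤
          K * ((∫ x in closedBall y b, side sd P.g x) / (b - a)) ^ n ∧
        P.μ.real {p | p.1 ∈ closedBall y a} ≤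
          K * ((∫ x in closedBall y b, side sd P.g x) / (b - a)) := by
  obtain ⟨C, Q, S, Kp, r₀, ρ, hC0, hQ0, hS0, hKp0, hr₀0, hρ, hcut⟩ := exists_cut hn hG hη A y sd hd
  have hQK : 0 ≤ S * (2 * C ^ 2 * Q) ^ n := mul_nonneg hS0 (by positivity)
  refine ⟨S * (2 * C ^ 2 * Q) ^ n + Q, r₀, add_nonneg hQK hQ0, hr₀0, fun a b ha hab hb => ?_⟩
  obtain ⟨d, hd0, rfl⟩ : ∃ d, 0 < d ∧ b = a + 3 * d := ⟨(b - a) / 3, by linarith, by ring⟩
  rw [add_sub_cancel_left]
  set φl := cutR y a d
  set φu := cutR y (a + 2 * d) d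
  have hl : Cls φl := cls_cutR ha hd0 y
  have hu : Cls φu := cls_cutR (by positivity) hd0 y
  have hW := tendsto_wmass P hη
  set W := wmass G η P.g
  have hεlim : Tendsto (fun k => |profE n e (wmass G η (f k)) - profE n e W| +
      Kp * |wmass G η (f k) - W| + |A.ε k|) P.l (𝓝 0) := by
    have := (((hd.continuousAt.tendsto.comp hW).sub_const (profE n e W)).abs.add
      ((hW.sub_const W).abs.const_mul Kp)).add (A.ε_lim.mono_left P.le).abs
    simpa only [sub_self, abs_zero, mul_zero, add_zero, Function.comp_def] using this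
  have hmid : Tendsto (fun k => midv G (f k)) P.l (𝓝 0) :=
    squeeze_zero (fun k => midv_nonneg (A.cls k))
      (fun k => le_mul_of_one_le_left (midv_nonneg (A.cls k)) (A.L_one k))
      (A.mid_lim.mono_left P.le)
  have hev : ∀ᶠ k in P.l, |wmass G η (f k) - W| < ρ := by
    have := (hW.sub_const W).abs
    rw [sub_self, abs_zero] at this
    exact this.eventually_lt_const hρ
  have hkey := hev.mono fun k hk => hcut a d ha hd0 hb k hk
  -- pass to the limit
  have tl := tendsto_leb hG A.cls P sd hl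
  have tu := (((tendsto_leb hG A.cls P sd hu).div_const (3 * d)).const_mul Q).add hεlim
  have ts := tendsto_surf hG A.cls P (F := fun q => φl q.1)
    (hl.c1.continuous.comp continuous_fst) hl.supp fun q hq => image_eq_zero_of_notMem_tsupport hq
  have lim1 := le_of_tendsto_of_tendsto
    (((tl.sub (hmid.const_mul C)).max tendsto_const_nhds).pow (n - 1))
    (((tu.const_mul (2 * C ^ 2)).pow n).const_mul S) (hkey.mono fun k hk => hk.1)
  have lim2 := le_of_tendsto_of_tendsto ts tu (hkey.mono fun k hk => hk.2)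
  simp only [mul_zero, sub_zero, add_zero] at lim1 lim2
  have hg01 : ∀ x, side sd P.g x ∈ Icc (0 : ℝ) 1 := fun x => side_mem sd (P.g_mem x)
  have hgm := measurable_side sd P.g_meas
  have hgi : ∀ t, IntegrableOn (side sd P.g) (closedBall y t) := fun t =>
    Measure.integrableOn_of_bounded (M := 1) (isCompact_closedBall y t).measure_lt_top.ne
      hgm.aestronglyMeasurable (ae_of_all _ fun x => by
        rw [Real.norm_eq_abs, abs_of_nonneg (hg01 x).1]; exact (hg01 x).2)
  have hup : ∫ x, φu x * side sd P.g x ≤ ∫ x in closedBall y (a + 3 * d), side sd P.g x := by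
    rw [← integral_indicator measurableSet_closedBall]
    refine integral_mono (integrable_test hu hgm hg01)
      ((hgi (a + 3 * d)).integrable_indicator measurableSet_closedBall) fun x => ?_
    have h := cutR_le_indicator (y := y) (by positivity : (0 : ℝ) ≤ a + 2 * d) hd0
      (t := a + 3 * d) (by linarith) x
    calc φu x * side sd P.g x ≤ (closedBall y (a + 3 * d)).indicator (fun _ => (1 : ℝ)) x * side sd P.g x :=
          mul_le_mul_of_nonneg_right h (hg01 x).1
      _ = _ := by by_cases hx : x ∈ closedBall y (a + 3 * d) <;> simp [hx]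
  have hlo : ∫ x in closedBall y a, side sd P.g x ≤ ∫ x, φl x * side sd P.g x := by
    rw [← integral_indicator measurableSet_closedBall]
    refine integral_mono ((hgi a).integrable_indicator measurableSet_closedBall)
      (integrable_test hl hgm hg01) fun x => ?_
    by_cases hx : x ∈ closedBall y a
    · rw [indicator_of_mem hx]
      rw [mem_closedBall, dist_eq_norm] at hx
      simp [φl, cutR_eq_one ha hd0 hx]
    · rw [indicator_of_notMem hx]
      exact mul_nonneg (hl.mem x).1 (hg01 x).1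
  set Mb := ∫ x in closedBall y (a + 3 * d), side sd P.g x
  have hMb : 0 ≤ Mb / (3 * d) := div_nonneg (setIntegral_nonneg measurableSet_closedBall
    fun x _ => (hg01 x).1) (by positivity : (0 : ℝ) ≤ 3 * d)
  have hIu : 0 ≤ (∫ x, φu x * side sd P.g x) / (3 * d) :=
    div_nonneg (integral_nonneg fun x => mul_nonneg (hu.mem x).1 (hg01 x).1) (by positivity : (0 : ℝ) ≤ 3 * d)
  have hIuD := div_le_div_of_nonneg_right hup (by positivity : (0 : ℝ) ≤ 3 * d)
  have hMa : 0 ≤ ∫ x in closedBall y a, side sd P.g x :=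
    setIntegral_nonneg measurableSet_closedBall fun x _ => (hg01 x).1
  constructor
  · refine (pow_le_pow_left₀ hMa (hlo.trans (le_max_left _ 0)) _).trans (lim1.trans ?_)
    calc S * (2 * C ^ 2 * (Q * ((∫ x, φu x * side sd P.g x) / (3 * d)))) ^ n
        ≤ S * (2 * C ^ 2 * (Q * (Mb / (3 * d)))) ^ n := mul_le_mul_of_nonneg_left
          (pow_le_pow_left₀ (by positivity) (mul_le_mul_of_nonneg_left
            (mul_le_mul_of_nonneg_left hIuD hQ0) (by positivity)) _) hS0
      _ = S * (2 * C ^ 2 * Q) ^ n * (Mb / (3 * d)) ^ n := by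
          rw [← mul_assoc (2 * C ^ 2) Q, mul_pow, ← mul_assoc]
      _ ≤ _ := mul_le_mul_of_nonneg_right (le_add_of_nonneg_right hQ0) (by positivity)
  · have h1 : P.μ.real {q | q.1 ∈ closedBall y a} ≤ ∫ q, φl q.1 ∂P.μ := by
      rw [show {q : E n × E n | q.1 ∈ closedBall y a} = Prod.fst ⁻¹' closedBall y a from rfl,
        ← integral_indicator_one (measurable_fst measurableSet_closedBall)]
      refine integral_mono ((integrable_const (1 : ℝ)).indicator
        (measurable_fst measurableSet_closedBall))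
        (Integrable.of_bound (hl.c1.continuous.comp continuous_fst).aestronglyMeasurable 1
          (ae_of_all _ fun q => by
            rw [Real.norm_eq_abs]
            exact (abs_of_nonneg (hl.mem q.1).1).trans_le (hl.mem q.1).2)) fun q => ?_
      by_cases hq : q.1 ∈ closedBall y a
      · rw [indicator_of_mem (by exact hq)]
        rw [mem_closedBall, dist_eq_norm] at hq
        simp [φl, cutR_eq_one ha hd0 hq]
      · rw [indicator_of_notMem (by exact hq)]
        exact (hl.mem q.1).1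
    refine h1.trans (lim2.trans ?_)
    calc Q * ((∫ x, φu x * side sd P.g x) / (3 * d)) ≤ Q * (Mb / (3 * d)) :=
          mul_le_mul_of_nonneg_left hIuD hQ0
      _ ≤ _ := mul_le_mul_of_nonneg_right (le_add_of_nonneg_left hQK) hMb

/-- The iteration of De Giorgi. -/
theorem iteration (hn : 2 ≤ n) {K r₀ : ℝ} (hK : 0 ≤ K) (M : ℝ → ℝ) (hM0 : ∀ r, 0 ≤ M r)
    (hMm : Monotone M)
    (hdec : ∀ a b : ℝ, 0 ≤ a → a < b → b ≤ r₀ → M a ^ (n - 1) ≤ K * (M b / (b - a)) ^ n) :
    ∃ σ : ℝ, 0 < σ ∧ ∀ r, 0 < r → r ≤ r₀ → M r < σ * r ^ n → M (r / 2) = 0 := by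
  set θ : ℝ := (1 / 2) ^ n with hθ
  have hθ0 : 0 < θ := by positivity
  have hθ1 : θ < 1 := pow_lt_one₀ (by norm_num) (by norm_num) (by omega)
  set σ := θ ^ (n - 1) / (4 ^ n * (K + 1)) with hσ
  have hσ0 : 0 < σ := by positivity
  refine ⟨σ, hσ0, fun r hr hr0 hM => ?_⟩
  have hsmall : K * σ * 4 ^ n ≤ θ ^ (n - 1) := by
    rw [hσ]
    have : (0 : ℝ) < 4 ^ n := by positivity
    field_simp
    nlinarith
  have key : ∀ j : ℕ, M (r / 2 + r * (1 / 2) ^ (j + 1)) ≤ σ * r ^ n * θ ^ j := by
    intro j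
    induction j with
    | zero =>
        rw [show r / 2 + r * (1 / 2) ^ (0 + 1) = r by norm_num; ring]
        simpa using hM.le
    | succ j ih =>
        set b := r / 2 + r * (1 / 2) ^ (j + 1) with hb
        set a := r / 2 + r * (1 / 2) ^ (j + 1 + 1) with ha
        have hpos : 0 < r * (1 / 2 : ℝ) ^ (j + 1 + 1) := by positivity
        have hdiff : b - a = r * (1 / 2) ^ (j + 1 + 1) := by rw [hb, ha]; ring
        have hbr : b ≤ r₀ := by
          have : (1 / 2 : ℝ) ^ (j + 1) ≤ 1 / 2 := by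
            rw [pow_succ]
            exact mul_le_of_le_one_left (by norm_num) (pow_le_one₀ (by norm_num) (by norm_num))
          nlinarith
        have h := hdec a b (by positivity) (by linarith) hbr
        rw [hdiff] at h
        have h2 : M b / (r * (1 / 2) ^ (j + 1 + 1)) ≤
            σ * 4 * (r ^ (n - 1) * (2 * θ) ^ j) := by
          rw [div_le_iff₀ hpos]
          refine ih.trans_eq ?_
          have e : r ^ n = r ^ (n - 1) * r := by
            rw [← pow_succ]; congr 1; omega
          rw [e, mul_pow, pow_add, pow_add]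
          have : (2 : ℝ) ^ j * (1 / 2) ^ j = 1 := by rw [← mul_pow]; norm_num
          calc σ * (r ^ (n - 1) * r) * θ ^ j
              = σ * (r ^ (n - 1) * r) * θ ^ j * ((2 : ℝ) ^ j * (1 / 2) ^ j) := by
                rw [this, mul_one]
            _ = _ := by ring
        have h3 : (2 * θ) ^ n = θ ^ (n - 1) := by
          obtain ⟨m, rfl⟩ : ∃ m, n = m + 1 := ⟨n - 1, by omega⟩
          have : (2 : ℝ) ^ (m + 1) * θ = 1 := by rw [hθ, ← mul_pow]; norm_num
          calc (2 * θ) ^ (m + 1) = ((2 : ℝ) ^ (m + 1) * θ) * θ ^ m := by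
                rw [mul_pow, pow_succ θ]; ring
            _ = θ ^ (m + 1 - 1) := by rw [this, one_mul, Nat.add_sub_cancel]
        refine le_of_pow_le_pow_left₀ (by omega : n - 1 ≠ 0) (by positivity) (h.trans ?_)
        calc K * (M b / (r * (1 / 2) ^ (j + 1 + 1))) ^ n
            ≤ K * (σ * 4 * (r ^ (n - 1) * (2 * θ) ^ j)) ^ n :=
              mul_le_mul_of_nonneg_left (pow_le_pow_left₀ (div_nonneg (hM0 _) hpos.le) h2 _) hK
          _ = K * σ * 4 ^ n * (σ ^ (n - 1) * (r ^ n) ^ (n - 1) * (θ ^ j) ^ (n - 1)) := by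
              have eθ : ((2 * θ) ^ j) ^ n = (θ ^ j) ^ (n - 1) := by
                rw [← pow_mul, Nat.mul_comm, pow_mul, h3, ← pow_mul, Nat.mul_comm, pow_mul]
              have er : (r ^ (n - 1)) ^ n = (r ^ n) ^ (n - 1) := by
                rw [← pow_mul, Nat.mul_comm, pow_mul]
              have es : σ ^ n = σ * σ ^ (n - 1) := by rw [← pow_succ']; congr 1; omega
              rw [mul_pow, mul_pow, mul_pow, eθ, er, es]
              ring
          _ ≤ θ ^ (n - 1) * (σ ^ (n - 1) * (r ^ n) ^ (n - 1) * (θ ^ j) ^ (n - 1)) :=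
              mul_le_mul_of_nonneg_right hsmall (by positivity)
          _ = (σ * r ^ n * θ ^ (j + 1)) ^ (n - 1) := by rw [pow_succ θ j]; ring
  refine le_antisymm ?_ (hM0 _)
  have hlim : Tendsto (fun j : ℕ => σ * r ^ n * θ ^ j) atTop (𝓝 0) := by
    simpa using (tendsto_pow_atTop_nhds_zero_of_lt_one hθ0.le hθ1).const_mul (σ * r ^ n)
  exact ge_of_tendsto' hlim fun j => (hMm (by
    have : 0 ≤ r * (1 / 2 : ℝ) ^ (j + 1) := by positivity
    linarith)).trans (key j)

theorem volDensStmt : VolDensStmt := by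
  intro n G e hn _ hG η hη f A P h₁ _ hd
  have hsupp : ∀ᵐ q ∂P.μ, q.1 ∈ (P.μ.map Prod.fst).support :=
    ae_of_ae_map measurable_fst.aemeasurable Measure.support_mem_ae
  filter_upwards [hsupp] with q hq
  have hside : ∀ sd : Bool, ∃ σ r₀ : ℝ, 0 < σ ∧ 0 < r₀ ∧
      ∀ r, 0 < r → r ≤ r₀ → σ * r ^ n ≤ ∫ x in closedBall q.1 r, side sd P.g x := by
    intro sd
    obtain ⟨K, r₀, hK, hr₀, hdec⟩ := exists_decay hn hG hη A P hd q.1 sd
    set M : ℝ → ℝ := fun r => ∫ x in closedBall q.1 r, side sd P.g x with hM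
    have h0 : ∀ x, 0 ≤ side sd P.g x := fun x => (side_mem sd (P.g_mem x)).1
    have hM0 : ∀ r, 0 ≤ M r := fun r =>
      setIntegral_nonneg measurableSet_closedBall fun x _ => h0 x
    have hMm : Monotone M := fun r t hrt => setIntegral_mono_set
      (Measure.integrableOn_of_bounded (M := 1) (isCompact_closedBall q.1 t).measure_lt_top.ne
        (measurable_side sd P.g_meas).aestronglyMeasurable (ae_of_all _ fun x => by
          rw [Real.norm_eq_abs, abs_of_nonneg (h0 x)]
          exact (side_mem sd (P.g_mem x)).2))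
      (ae_of_all _ h0) (Eventually.of_forall fun x hx => closedBall_subset_closedBall hrt hx)
    obtain ⟨σ, hσ, hit⟩ := iteration hn hK M hM0 hMm fun a b ha hab hb => (hdec a b ha hab hb).1
    refine ⟨σ, r₀, hσ, hr₀, fun r hr hr0 => le_of_not_gt fun hlt => ?_⟩
    have hz := hit r hr hr0 hlt
    have h2 := (hdec (r / 4) (r / 2) (by positivity) (by linarith) (by linarith)).2
    change _ ≤ K * (M (r / 2) / _) at h2
    rw [hz, zero_div, mul_zero] at h2
    have hpos : 0 < (P.μ.map Prod.fst) (closedBall q.1 (r / 4)) :=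
      (Measure.mem_support_iff_forall _).1 hq _ (closedBall_mem_nhds _ (by positivity))
    rw [Measure.map_apply measurable_fst measurableSet_closedBall] at hpos
    have h3 := ENNReal.toReal_pos hpos.ne' (measure_ne_top _ _)
    exact absurd h2 (not_le.2 h3)
  obtain ⟨σ₁, r₁, hσ₁, hr₁, h₁'⟩ := hside false
  obtain ⟨σ₂, r₂, hσ₂, hr₂, h₂'⟩ := hside true
  refine ⟨min σ₁ σ₂, lt_min hσ₁ hσ₂, ?_⟩
  filter_upwards [Ioc_mem_nhdsGT (lt_min hr₁ hr₂)] with r hr
  have hp : (0 : ℝ) ≤ r ^ n := pow_nonneg hr.1.le n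
  exact ⟨(mul_le_mul_of_nonneg_right (min_le_left _ _) hp).trans
      (h₁' r hr.1 (hr.2.trans (min_le_left _ _))),
    (mul_le_mul_of_nonneg_right (min_le_right _ _) hp).trans
      (h₂' r hr.1 (hr.2.trans (min_le_right _ _)))⟩

end

end Vale.Agent.P219.CH.Full.Minimiser
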