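import Vale.Agent.P219.CH.Full.Defs
import Vale.Agent.P219.CH.Core.MinTools
import Vale.Agent.P219.CH.Core.Variation
import Vale.Agent.P219.CH.Core.Field.Surf

/-!
P219, the minimiser module: elementary facts about competitors and their weak limits.
-/

namespace Vale.Agent.P219.CH.Full.Minimiser

open MeasureTheory Filter Topology Set Metric
open scoped ContDiff RealInnerProductSpace

noncomputable section

variable {n : ℕ} {G : Coeff n} (hG : IsMetric G)

theorem continuous_divg (hG : IsMetric G) {X : E n → E n} (hX : ContDiff ℝ 1 X) :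
    Continuous (divg G X) :=
  (Core.Variation.continuous_trc hG).comp
    (continuous_id.prodMk (hX.continuous.prodMk (hX.continuous_fderiv one_ne_zero)))

theorem divg_eq_zero {X : E n → E n} {x : E n} (hx : x ∉ tsupport X) : divg G X x = 0 := by
  simp [divg, covd, fderiv_of_notMem_tsupport (𝕜 := ℝ) hx, image_eq_zero_of_notMem_tsupport hx,
    chr_zero_right]

theorem covd_eq_zero {X : E n → E n} {x : E n} (hx : x ∉ tsupport X) (w : E n) :
    covd G X x w = 0 := by
  simp [covd, fderiv_of_notMem_tsupport (𝕜 := ℝ) hx, image_eq_zero_of_notMem_tsupport hx,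
    chr_zero_right]

theorem continuous_divT (hG : IsMetric G) {X : E n → E n} (hX : ContDiff ℝ 1 X) :
    Continuous (divT G X) := by
  have hc : Continuous fun p : E n × E n => covd G X p.1 p.2 :=
    (((hX.continuous_fderiv one_ne_zero).comp continuous_fst).clm_apply continuous_snd).add
      (hG.contDiff_chr.continuous.comp
        (continuous_fst.prodMk (continuous_snd.prodMk (hX.continuous.comp continuous_fst))))
  exact ((continuous_divg hG hX).comp continuous_fst).sub
    ((Core.Mini.continuous_apply₂ hG).comp (continuous_fst.prodMk (hc.prodMk continuous_snd)))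

theorem divg_smul {η : E n → ℝ} {X : E n → E n} (hη : ContDiff ℝ 1 η) (hX : ContDiff ℝ 1 X)
    (x : E n) :
    divg G (fun y => η y • X y) x = η x * divg G X x + fderiv ℝ η x (X x) := by
  have h := fderiv_fun_smul (hη.differentiable one_ne_zero x) (hX.differentiable one_ne_zero x)
  have e : ∀ i, covd G (fun y => η y • X y) x (EuclideanSpace.single i 1) i =
      η x * covd G X x (EuclideanSpace.single i 1) i +
        fderiv ℝ η x (X x i • EuclideanSpace.single i 1) := fun i => by
    simp [covd, h, chr_smul_right]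
    ring
  simp only [divg, e, Finset.sum_add_distrib, ← Finset.mul_sum, ← map_sum]
  rw [show ∑ i, X x i • EuclideanSpace.single i (1 : ℝ) = X x from sum_coord_smul (X x)]

/-! ### Competitors -/

theorem _root_.Vale.Agent.P219.CH.Full.Cls.integrable (hG : IsMetric G) {f φ : E n → ℝ} (hf : Cls f) (hφ : Continuous φ) :
    Integrable (fun x => φ x * f x) (vol G) :=
  Core.Mini.integrable_of_supp hG (hφ.mul hf.c1.continuous) hf.supp.mul_left

theorem _root_.Vale.Agent.P219.CH.Full.Cls.integrable_left (hG : IsMetric G) {η f : E n → ℝ} (hη : Cls η) (hf : Continuous f) :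
    Integrable (fun x => η x * f x) (vol G) :=
  Core.Mini.integrable_of_supp hG (hη.c1.continuous.mul hf) hη.supp.mul_right

theorem midv_nonneg {f : E n → ℝ} (hf : Cls f) : 0 ≤ midv G f :=
  integral_nonneg fun x => mul_nonneg (hf.mem x).1 (sub_nonneg.2 (hf.mem x).2)

theorem wmass_mem (hG : IsMetric G) {η f : E n → ℝ} (hη : Cls η) (hf : Cls f) :
    0 ≤ wmass G η f ∧ wmass G η f ≤ ∫ x, η x ∂vol G := by
  refine ⟨integral_nonneg fun x => mul_nonneg (hη.mem x).1 (hf.mem x).1, ?_⟩
  exact integral_mono (hη.integrable_left hG hf.c1.continuous)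
    (Core.Mini.integrable_of_supp hG hη.c1.continuous hη.supp) fun x =>
      mul_le_of_le_one_right (hη.mem x).1 (hf.mem x).2

theorem tendsto_wmass {f : ℕ → E n → ℝ} (P : Pre G f) {η : E n → ℝ} (hη : Cls η) :
    Tendsto (fun k => wmass G η (f k)) P.l (𝓝 (wmass G η P.g)) :=
  P.g_lim η hη.c1.continuous hη.supp

/-- The almost minimality in one line. -/
theorem almost_le {e : ℝ} {η : E n → ℝ} {f : ℕ → E n → ℝ} (A : Almost G e η f) (k : ℕ)
    {f' : E n → ℝ} (h : Cls f') :
    0 ≤ (tvar G f' - tvar G (f k)) + A.L k * (midv G f' - midv G (f k)) -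
      (profE n e (wmass G η f') - profE n e (wmass G η (f k))) + A.ε k := by
  have := A.min k f' h
  linarith [mul_sub (A.L k) (midv G f') (midv G (f k))]

/-! ### Test functions on the unit bundle -/

theorem normal_unit (hG : IsMetric G) {f : E n → ℝ} {x : E n}
    (h : gnorm G x (grad G f x) ≠ 0) : G x (normal G f x) (normal G f x) = 1 := by
  have hp := gnorm_nonneg G x (grad G f x)
  simp only [normal, neg_smul, map_neg, map_smul, neg_apply, smul_apply, smul_eq_mul]
  rw [← hG.gnorm_sq]
  field_simp

theorem normal_unit_ae (hG : IsMetric G) {f : E n → ℝ} (hf : ContDiff ℝ 1 f) :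
    ∀ᵐ x ∂surf G f, G x (normal G f x) (normal G f x) = 1 := by
  rw [surf, ae_withDensity_iff (Core.Field.continuous_gnorm_grad hG hf).measurable.ennreal_ofReal]
  refine ae_of_all _ fun x hx => normal_unit hG fun h => hx ?_
  simp [h]

theorem isCompact_unit (hG : IsMetric G) {K : Set (E n)} (hK : IsCompact K) (R : ℝ) :
    IsCompact {p : E n × E n | p.1 ∈ K ∧ G p.1 p.2 p.2 ≤ R} := by
  obtain ⟨m, hm, hmin⟩ := (hK.prod (isCompact_sphere (0 : E n) 1)).exists_forall_le'
    (f := fun p => G p.1 p.2 p.2)
    ((((hG.smooth.continuous.comp continuous_fst).clm_apply continuous_snd).clm_apply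
      continuous_snd).continuousOn) (a := 0)
    fun p hp => hG.pos p.1 p.2 fun e => by
      have := hp.2
      simp [e] at this
  refine (hK.prod (isCompact_closedBall (0 : E n) (Real.sqrt (|R| / m)))).of_isClosed_subset
    (hK.isClosed.preimage continuous_fst |>.inter (isClosed_le
      (((hG.smooth.continuous.comp continuous_fst).clm_apply continuous_snd).clm_apply
        continuous_snd) continuous_const)) fun p hp => ⟨hp.1, ?_⟩
  rw [mem_closedBall_zero_iff]
  rcases eq_or_ne p.2 0 with h | h
  · rw [h, norm_zero]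
    exact Real.sqrt_nonneg _
  have hu : 0 < ‖p.2‖ := norm_pos_iff.2 h
  have := hmin (p.1, ‖p.2‖⁻¹ • p.2) ⟨hp.1, by simp [norm_smul, inv_mul_cancel₀ hu.ne']⟩
  simp only [map_smul, smul_apply, smul_eq_mul] at this
  refine Real.le_sqrt_of_sq_le ?_
  rw [le_div_iff₀ hm]
  have e : ‖p.2‖⁻¹ * (‖p.2‖⁻¹ * G p.1 p.2 p.2) = G p.1 p.2 p.2 / ‖p.2‖ ^ 2 := by field_simp
  rw [e, le_div_iff₀ (by positivity)] at this
  have := le_abs_self R
  nlinarith [hp.2]

/-- Integrals of functions supported over a compact set of points pass to the limit. -/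
theorem tendsto_surf (hG : IsMetric G) {f : ℕ → E n → ℝ} (hf : ∀ k, Cls (f k)) (P : Pre G f)
    {F : E n × E n → ℝ} (hF : Continuous F) {K : Set (E n)} (hK : IsCompact K)
    (hFK : ∀ p, p.1 ∉ K → F p = 0) :
    Tendsto (fun k => ∫ x, F (x, normal G (f k) x) ∂surf G (f k)) P.l (𝓝 (∫ p, F p ∂P.μ)) := by
  set F' : E n × E n → ℝ := fun p => max 0 (min 1 (2 - G p.1 p.2 p.2)) * F p with hF'
  have hc : Continuous F' :=
    (continuous_const.max (continuous_const.min (continuous_const.sub
      (((hG.smooth.continuous.comp continuous_fst).clm_apply continuous_snd).clm_apply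
        continuous_snd)))).mul hF
  have hs : HasCompactSupport F' := HasCompactSupport.intro (isCompact_unit hG hK 2) fun p hp => by
    by_cases h1 : p.1 ∈ K
    · have h2 : 2 < G p.1 p.2 p.2 := lt_of_not_ge fun h => hp ⟨h1, h⟩
      rw [hF']
      dsimp only
      rw [max_eq_left ((min_le_right _ _).trans (by linarith)), zero_mul]
    · simp [hF', hFK p h1]
  have h1 : ∀ p : E n × E n, G p.1 p.2 p.2 = 1 → F' p = F p := fun p hp => by
    norm_num [hF', hp]
  have e : ∫ p, F p ∂P.μ = ∫ p, F' p ∂P.μ :=
    integral_congr_ae (P.unit.mono fun p hp => (h1 p hp).symm)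
  rw [e]
  refine (P.mu_lim F' hc hs).congr fun k => integral_congr_ae ?_
  exact (normal_unit_ae hG (hf k).c1).mono fun x hx => h1 (x, normal G (f k) x) hx

/-! ### Derivatives of products -/

theorem gnorm_add_le (hG : IsMetric G) (x u v : E n) :
    gnorm G x (u + v) ≤ gnorm G x u + gnorm G x v := by
  have h := (le_abs_self _).trans (hG.cauchy x u v)
  have e : G x (u + v) (u + v) = gnorm G x u ^ 2 + 2 * G x u v + gnorm G x v ^ 2 := by
    rw [hG.gnorm_sq, hG.gnorm_sq]
    simp only [map_add, add_apply]
    rw [hG.symm x v u]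
    ring
  rw [show gnorm G x (u + v) = Real.sqrt (G x (u + v) (u + v)) from rfl]
  refine Real.sqrt_le_iff.2 ⟨add_nonneg (gnorm_nonneg G x u) (gnorm_nonneg G x v), ?_⟩
  rw [e]
  nlinarith

theorem gnorm_grad_mul_le (hG : IsMetric G) {u v : E n → ℝ} {x : E n}
    (hu : DifferentiableAt ℝ u x) (hv : DifferentiableAt ℝ v x) :
    gnorm G x (grad G (fun y => u y * v y) x) ≤
      |u x| * gnorm G x (grad G v x) + |v x| * gnorm G x (grad G u x) := by
  have e : grad G (fun y => u y * v y) x = u x • grad G v x + v x • grad G u x :=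
    hG.ext (x := x) fun w => by
      simp [hG.G_grad, fderiv_fun_mul hu hv]
  rw [e]
  refine (gnorm_add_le hG x _ _).trans_eq ?_
  rw [gnorm_smul, gnorm_smul]

theorem grad_const_sub (G : Coeff n) (u : E n → ℝ) (c : ℝ) (x : E n) :
    gnorm G x (grad G (fun y => c - u y) x) = gnorm G x (grad G u x) := by
  have e : grad G (fun y => c - u y) x = (-1 : ℝ) • grad G u x := by
    simp [grad, fderiv_const_sub]
  rw [e, gnorm_smul]
  simp

end

end Vale.Agent.P219.CH.Full.Minimiser
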