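import Vale.Agent.P219.CH.Full.Minimiser.Basic
import Mathlib.Analysis.FunctionalSpaces.SobolevInequality
import Mathlib.Analysis.SpecialFunctions.SmoothTransition

/-!
P219, the minimiser module: cutting or filling a small ball.
-/

namespace Vale.Agent.P219.CH.Full.Minimiser

open MeasureTheory Filter Topology Set Metric
open scoped ContDiff RealInnerProductSpace

noncomputable section

set_option maxSynthPendingDepth 3

variable {n : ℕ} {G : Coeff n}

/-! ### The two sides -/

/-- `f` or `1 - f`. -/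
def side (b : Bool) (f : E n → ℝ) (x : E n) : ℝ := bif b then 1 - f x else f x

theorem side_side (b : Bool) (f : E n → ℝ) (x : E n) : side b (side b f) x = f x := by
  cases b <;> simp [side]

theorem side_mem (b : Bool) {f : E n → ℝ} {x : E n} (h : f x ∈ Icc (0 : ℝ) 1) :
    side b f x ∈ Icc (0 : ℝ) 1 := by
  cases b
  · exact h
  · exact ⟨sub_nonneg.2 h.2, sub_le_self _ h.1⟩

theorem side_mul_one_sub (b : Bool) (f : E n → ℝ) (x : E n) :
    side b f x * (1 - side b f x) = f x * (1 - f x) := by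
  cases b <;> simp [side]
  ring

theorem contDiff_side (b : Bool) {f : E n → ℝ} (hf : ContDiff ℝ 1 f) :
    ContDiff ℝ 1 (side b f) := by
  cases b
  · exact hf
  · exact contDiff_const.sub hf

theorem measurable_side (b : Bool) {f : E n → ℝ} (hf : Measurable f) :
    Measurable (side b f) := by
  cases b
  · exact hf
  · exact measurable_const.sub hf

theorem gnorm_grad_side (b : Bool) (G : Coeff n) (f : E n → ℝ) (x : E n) :
    gnorm G x (grad G (side b f) x) = gnorm G x (grad G f x) := by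
  cases b
  · rfl
  · exact grad_const_sub G f 1 x

/-- The function whose side is multiplied by `1 - χ`. -/
def punch (b : Bool) (χ f : E n → ℝ) : E n → ℝ := side b fun x => side b f x * (1 - χ x)

theorem cls_punch (b : Bool) {χ f : E n → ℝ} (hχ : Cls χ) (hf : Cls f) :
    Cls (punch b χ f) where
  c1 := contDiff_side b ((contDiff_side b hf.c1).mul (contDiff_const.sub hχ.c1))
  supp := HasCompactSupport.intro (hf.supp.union hχ.supp) fun x hx => by
    rw [mem_union, not_or] at hx
    cases b <;> simp [punch, side, image_eq_zero_of_notMem_tsupport hx.1,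
      image_eq_zero_of_notMem_tsupport hx.2]
  mem x := side_mem b ⟨mul_nonneg (side_mem b (hf.mem x)).1 (sub_nonneg.2 (hχ.mem x).2),
    mul_le_one₀ (side_mem b (hf.mem x)).2 (sub_nonneg.2 (hχ.mem x).2)
      (sub_le_self _ (hχ.mem x).1)⟩

theorem continuous_gg (hG : IsMetric G) {f : E n → ℝ} (hf : ContDiff ℝ 1 f) :
    Continuous fun x => gnorm G x (grad G f x) := Core.Field.continuous_gnorm_grad hG hf

theorem tvar_punch_le (hG : IsMetric G) (b : Bool) {χ f : E n → ℝ} (hχ : Cls χ) (hf : Cls f) :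
    tvar G (punch b χ f) + ∫ x, χ x * gnorm G x (grad G f x) ∂vol G ≤
      tvar G f + ∫ x, side b f x * gnorm G x (grad G χ x) ∂vol G := by
  have hp := cls_punch b hχ hf
  have hu := contDiff_side b hf.c1
  have i1 := Core.Mini.integrable_gnorm_grad hG hp.c1 hp.supp
  have i2 := Core.Mini.integrable_gnorm_grad hG hf.c1 hf.supp
  have i3 : Integrable (fun x => χ x * gnorm G x (grad G f x)) (vol G) :=
    Core.Mini.integrable_of_supp hG (hχ.c1.continuous.mul (continuous_gg hG hf.c1)) hχ.supp.mul_right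
  have i4 : Integrable (fun x => side b f x * gnorm G x (grad G χ x)) (vol G) := by
    refine Core.Mini.integrable_of_supp hG (hu.continuous.mul (continuous_gg hG hχ.c1))
      (HasCompactSupport.mul_left (HasCompactSupport.intro hχ.supp fun x hx => ?_))
    simp [gnorm, Core.Mini.grad_eq_zero hx]
  rw [tvar, tvar, ← integral_add i1 i3, ← integral_add i2 i4]
  refine integral_mono (i1.add i3) (i2.add i4) fun x => ?_
  have h := gnorm_grad_mul_le hG (u := side b f) (v := fun y => 1 - χ y) (x := x)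
    (hu.differentiable one_ne_zero x) ((contDiff_const.sub hχ.c1).differentiable one_ne_zero x)
  rw [grad_const_sub, gnorm_grad_side, abs_of_nonneg (side_mem b (hf.mem x)).1,
    abs_of_nonneg (sub_nonneg.2 (hχ.mem x).2)] at h
  rw [punch, gnorm_grad_side]
  linarith

theorem midv_punch_le (hG : IsMetric G) (b : Bool) {χ f : E n → ℝ} (hχ : Cls χ) (hf : Cls f) :
    midv G (punch b χ f) ≤ midv G f + ∫ x, side b f x * (χ x * (1 - χ x)) ∂vol G := by
  have hp := cls_punch b hχ hf
  have hu := (contDiff_side b hf.c1).continuous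
  have i1 : Integrable (fun x => punch b χ f x * (1 - punch b χ f x)) (vol G) :=
    Core.Mini.integrable_of_supp hG (hp.c1.continuous.mul (continuous_const.sub hp.c1.continuous))
      hp.supp.mul_right
  have i2 : Integrable (fun x => f x * (1 - f x)) (vol G) :=
    Core.Mini.integrable_of_supp hG (hf.c1.continuous.mul (continuous_const.sub hf.c1.continuous))
      hf.supp.mul_right
  have i3 : Integrable (fun x => side b f x * (χ x * (1 - χ x))) (vol G) :=
    Core.Mini.integrable_of_supp hG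
      (hu.mul (hχ.c1.continuous.mul (continuous_const.sub hχ.c1.continuous)))
      (hχ.supp.mul_right.mul_left)
  rw [midv, midv, ← integral_add i2 i3]
  refine integral_mono i1 (i2.add i3) fun x => ?_
  show punch b χ f x * (1 - punch b χ f x) ≤ f x * (1 - f x) + side b f x * (χ x * (1 - χ x))
  rw [punch, side_mul_one_sub, ← side_mul_one_sub b f x]
  obtain ⟨h1, h2⟩ := side_mem b (hf.mem x)
  obtain ⟨h3, h4⟩ := hχ.mem x
  nlinarith [mul_nonneg (mul_nonneg h1 h3) (mul_nonneg (sub_nonneg.2 h2) (show (0 : ℝ) ≤ 2 - χ x by linarith))]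

theorem wmass_punch_le (hG : IsMetric G) (b : Bool) {η χ f : E n → ℝ} (hη : Cls η) (hχ : Cls χ)
    (hf : Cls f) :
    |wmass G η (punch b χ f) - wmass G η f| ≤ ∫ x, χ x * side b f x ∂vol G := by
  have hp := cls_punch b hχ hf
  have i1 := hη.integrable_left hG hp.c1.continuous
  have i2 := hη.integrable_left hG hf.c1.continuous
  have i3 := hχ.integrable_left hG (contDiff_side b hf.c1).continuous
  rw [wmass, wmass, ← integral_sub i1 i2]
  refine abs_integral_le_integral_abs.trans (integral_mono (i1.sub i2).abs i3 fun x => ?_)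
  show |η x * punch b χ f x - η x * f x| ≤ χ x * side b f x
  have e : |punch b χ f x - f x| = χ x * side b f x := by
    have h : 0 ≤ χ x * side b f x := mul_nonneg (hχ.mem x).1 (side_mem b (hf.mem x)).1
    cases b <;> simp only [punch, side, cond_true, cond_false] at h ⊢
    · rw [show f x * (1 - χ x) - f x = -(χ x * f x) by ring, abs_neg, abs_of_nonneg h]
    · rw [show 1 - (1 - f x) * (1 - χ x) - f x = χ x * (1 - f x) by ring, abs_of_nonneg h]
  rw [← mul_sub, abs_mul, abs_of_nonneg (hη.mem x).1, e]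
  exact mul_le_of_le_one_left (mul_nonneg (hχ.mem x).1 (side_mem b (hf.mem x)).1) (hη.mem x).2

/-! ### The radial cutoff -/

/-- One on the ball of radius `s`, zero outside the ball of radius `s + w`. -/
def cutR (y : E n) (s w : ℝ) (x : E n) : ℝ :=
  1 - Real.smoothTransition ((‖x - y‖ ^ 2 - s ^ 2) / ((s + w) ^ 2 - s ^ 2))

variable {y x : E n} {s w : ℝ}

theorem cutR_mem (y : E n) (s w : ℝ) (x : E n) : cutR y s w x ∈ Icc (0 : ℝ) 1 :=
  ⟨sub_nonneg.2 (Real.smoothTransition.le_one _),
    sub_le_self _ (Real.smoothTransition.nonneg _)⟩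

theorem cutR_den (hs : 0 ≤ s) (hw : 0 < w) : 0 < (s + w) ^ 2 - s ^ 2 := by nlinarith

theorem cutR_eq_one (hs : 0 ≤ s) (hw : 0 < w) (h : ‖x - y‖ ≤ s) : cutR y s w x = 1 := by
  rw [cutR, Real.smoothTransition.zero_of_nonpos, sub_zero]
  exact div_nonpos_of_nonpos_of_nonneg
    (sub_nonpos.2 (pow_le_pow_left₀ (norm_nonneg _) h 2)) (cutR_den hs hw).le

theorem cutR_eq_zero (hs : 0 ≤ s) (hw : 0 < w) (h : s + w ≤ ‖x - y‖) : cutR y s w x = 0 := by
  rw [cutR, Real.smoothTransition.one_of_one_le, sub_self]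
  rw [one_le_div (cutR_den hs hw)]
  nlinarith

theorem contDiff_cutR (y : E n) (s w : ℝ) : ContDiff ℝ 1 (cutR y s w) :=
  contDiff_const.sub (Real.smoothTransition.contDiff.comp
    ((((contDiff_id.sub contDiff_const).norm_sq ℝ).sub contDiff_const).div_const _))

theorem cutR_supp (hs : 0 ≤ s) (hw : 0 < w) : tsupport (cutR y s w) ⊆ closedBall y (s + w) := by
  refine closure_minimal (fun x hx => ?_) isClosed_closedBall
  rw [mem_closedBall, dist_eq_norm]
  by_contra h
  exact hx (cutR_eq_zero hs hw (le_of_lt (not_le.1 h)))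

theorem cls_cutR (hs : 0 ≤ s) (hw : 0 < w) (y : E n) : Cls (cutR y s w) :=
  ⟨contDiff_cutR y s w, (isCompact_closedBall y (s + w)).of_isClosed_subset (isClosed_tsupport _)
    (cutR_supp hs hw), cutR_mem y s w⟩

/-- The open shell between the radii `s` and `s + w`. -/
def shell (y : E n) (s w : ℝ) : Set (E n) := {x | s < ‖x - y‖ ∧ ‖x - y‖ < s + w}

theorem measurableSet_shell (y : E n) (s w : ℝ) : MeasurableSet (shell y s w) :=
  ((isOpen_lt continuous_const (continuous_id.sub continuous_const).norm).inter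
    (isOpen_lt (continuous_id.sub continuous_const).norm continuous_const)).measurableSet

theorem cutR_shell (hs : 0 ≤ s) (hw : 0 < w) :
    cutR y s w x * (1 - cutR y s w x) ≤ (shell y s w).indicator (fun _ => 1) x := by
  obtain ⟨h1, h2⟩ := cutR_mem y s w x
  by_cases h : x ∈ shell y s w
  · rw [indicator_of_mem h]
    nlinarith
  · rw [indicator_of_notMem h]
    simp only [shell, mem_ofPred_eq, not_and_or, not_lt] at h
    rcases h with h | h
    · simp [cutR_eq_one hs hw h]
    · simp [cutR_eq_zero hs hw h]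

theorem exists_deriv_bound : ∃ C₀ : ℝ, 0 ≤ C₀ ∧ ∀ z, |deriv Real.smoothTransition z| ≤ C₀ := by
  obtain ⟨C, hC⟩ := isCompact_Icc.exists_bound_of_continuousOn (s := Icc (0 : ℝ) 1)
    ((Real.smoothTransition.contDiff (n := 1)).continuous_deriv le_rfl).continuousOn
  refine ⟨max C 0, le_max_right _ _, fun z => ?_⟩
  by_cases h : z ∈ Icc (0 : ℝ) 1
  · exact (hC z h).trans (le_max_left _ _)
  · have e : deriv Real.smoothTransition z = 0 := by
      rcases not_and_or.1 h with h | h
      · exact IsLocalMin.deriv_eq_zero (Eventually.of_forall fun t => by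
          rw [Real.smoothTransition.zero_of_nonpos (le_of_lt (not_le.1 h))]
          exact Real.smoothTransition.nonneg t)
      · exact IsLocalMax.deriv_eq_zero (Eventually.of_forall fun t => by
          rw [Real.smoothTransition.one_of_one_le (le_of_lt (not_le.1 h))]
          exact Real.smoothTransition.le_one t)
    simp [e]

theorem norm_fderiv_cutR {C₀ : ℝ} (hC₀ : ∀ z, |deriv Real.smoothTransition z| ≤ C₀)
    (hs : 0 ≤ s) (hw : 0 < w) :
    ‖fderiv ℝ (cutR y s w) x‖ ≤ (shell y s w).indicator (fun _ => 2 * C₀ / w) x := by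
  set D := (s + w) ^ 2 - s ^ 2 with hD
  set z := (‖x - y‖ ^ 2 - s ^ 2) / D with hz
  have hD0 : 0 < D := cutR_den hs hw
  have hC0 : 0 ≤ C₀ := (abs_nonneg _).trans (hC₀ 0)
  have h1 : HasFDerivAt (fun v => (‖v - y‖ ^ 2 - s ^ 2) / D)
      ((1 / D) • (2 • (innerSL ℝ (x - y)).comp (ContinuousLinearMap.id ℝ (E n)))) x := by
    have := ((((hasFDerivAt_id x).sub_const y).norm_sq).sub_const (s ^ 2)).const_mul (1 / D)
    simpa [div_eq_inv_mul] using this
  have h2 := (((Real.smoothTransition.contDiff (n := 1)).differentiable one_ne_zero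
    z).hasDerivAt.comp_hasFDerivAt x h1).const_sub (1 : ℝ)
  have e : cutR y s w = fun v => 1 - (Real.smoothTransition ∘ fun v => (‖v - y‖ ^ 2 - s ^ 2) / D) v :=
    rfl
  rw [e, h2.fderiv, norm_neg, norm_smul, Real.norm_eq_abs]
  by_cases h : x ∈ shell y s w
  · rw [indicator_of_mem h]
    have h3 : ‖(1 / D) • (2 • (innerSL ℝ (x - y)).comp (ContinuousLinearMap.id ℝ (E n)))‖ ≤
        2 / w := by
      rw [norm_smul, Real.norm_eq_abs, abs_of_pos (by positivity), ContinuousLinearMap.comp_id]
      refine (mul_le_mul_of_nonneg_left (norm_nsmul_le (n := 2) (a := innerSL ℝ (x - y)))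
        (by positivity)).trans ?_
      rw [innerSL_apply_norm, hD]
      rw [div_mul_eq_mul_div, one_mul, div_le_div_iff₀ (cutR_den hs hw) hw]
      simp only [shell, mem_ofPred_eq] at h
      push_cast
      nlinarith [mul_le_mul_of_nonneg_right h.2.le hw.le]
    calc _ ≤ C₀ * (2 / w) := mul_le_mul (hC₀ z) h3 (norm_nonneg _) hC0
      _ = 2 * C₀ / w := by ring
  · rw [indicator_of_notMem h]
    simp only [shell, mem_ofPred_eq, not_and_or, not_lt] at h
    have hd : deriv Real.smoothTransition z = 0 := by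
      rcases h with h | h
      · have : z ≤ 0 := div_nonpos_of_nonpos_of_nonneg
          (sub_nonpos.2 (pow_le_pow_left₀ (norm_nonneg _) h 2)) hD0.le
        exact IsLocalMin.deriv_eq_zero (Eventually.of_forall fun t => by
          rw [Real.smoothTransition.zero_of_nonpos this]
          exact Real.smoothTransition.nonneg t)
      · have : 1 ≤ z := by
          rw [hz, one_le_div hD0, hD]
          nlinarith
        exact IsLocalMax.deriv_eq_zero (Eventually.of_forall fun t => by
          rw [Real.smoothTransition.one_of_one_le this]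
          exact Real.smoothTransition.le_one t)
    rw [show deriv Real.smoothTransition ((‖x - y‖ ^ 2 - s ^ 2) / D) = 0 from hd]
    simp

/-! ### Comparisons on a compact ball -/

theorem exists_metric_bound (hG : IsMetric G) {K : Set (E n)} (hK : IsCompact K) :
    ∃ C : ℝ, 1 ≤ C ∧ ∀ x ∈ K, dens G x ≤ C ∧ 1 ≤ C * dens G x ∧ ∀ v : E n → ℝ,
      ‖fderiv ℝ v x‖ ≤ C * gnorm G x (grad G v x) ∧
      gnorm G x (grad G v x) ≤ C * ‖fderiv ℝ v x‖ := by
  have hd := Core.Mini.continuous_dens hG
  obtain ⟨c1, h1⟩ := hK.bddAbove_image hd.continuousOn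
  obtain ⟨c2, h2⟩ := hK.bddAbove_image ((hd.inv₀ fun x => (hG.dens_pos x).ne').continuousOn)
  obtain ⟨c3, h3⟩ := hK.bddAbove_image (hG.smooth.continuous.norm.continuousOn)
  obtain ⟨c4, h4⟩ := hK.bddAbove_image (hG.contDiff_inverse_sharp.continuous.norm.continuousOn)
  set C := max 1 (max c1 (max c2 (max c3 c4))) with hC
  have hC1 : 1 ≤ C := le_max_left _ _
  have hC0 : 0 ≤ C := zero_le_one.trans hC1
  refine ⟨C, hC1, fun x hx => ⟨(h1 (mem_image_of_mem _ hx)).trans (by simp [hC]), ?_, fun v => ?_⟩⟩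
  · have : (dens G x)⁻¹ ≤ C := (h2 (mem_image_of_mem _ hx)).trans (by simp [hC])
    calc 1 = (dens G x)⁻¹ * dens G x := (inv_mul_cancel₀ (hG.dens_pos x).ne').symm
      _ ≤ C * dens G x := mul_le_mul_of_nonneg_right this (hG.dens_pos x).le
  have hGx : ‖G x‖ ≤ C := (h3 (mem_image_of_mem _ hx)).trans (by simp [hC])
  have hIx : ‖Ring.inverse (sharp G x)‖ ≤ C := (h4 (mem_image_of_mem _ hx)).trans (by simp [hC])
  have hg := gnorm_nonneg G x (grad G v x)
  constructor
  · refine ContinuousLinearMap.opNorm_le_bound _ (mul_nonneg hC0 hg) fun a => ?_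
    rw [Real.norm_eq_abs, ← hG.G_grad]
    refine (hG.cauchy _ _ _).trans ?_
    have : gnorm G x a ≤ C * ‖a‖ := by
      rw [gnorm, Real.sqrt_le_iff]
      refine ⟨by positivity, ((le_abs_self _).trans ((G x).le_opNorm₂ a a)).trans ?_⟩
      calc ‖G x‖ * ‖a‖ * ‖a‖ ≤ C * ‖a‖ * ‖a‖ := by gcongr
        _ ≤ C * C * ‖a‖ * ‖a‖ := by gcongr; exact le_mul_of_one_le_left hC0 hC1
        _ = (C * ‖a‖) ^ 2 := by ring
    calc _ ≤ gnorm G x (grad G v x) * (C * ‖a‖) := mul_le_mul_of_nonneg_left this hg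
      _ = C * gnorm G x (grad G v x) * ‖a‖ := by ring
  · rw [gnorm, Real.sqrt_le_iff]
    refine ⟨by positivity, ?_⟩
    rw [hG.G_grad]
    have h5 : ‖grad G v x‖ ≤ C * ‖fderiv ℝ v x‖ := by
      refine ((Ring.inverse (sharp G x)).le_opNorm _).trans ?_
      rw [LinearIsometryEquiv.norm_map]
      exact mul_le_mul_of_nonneg_right hIx (norm_nonneg _)
    calc fderiv ℝ v x (grad G v x) ≤ ‖fderiv ℝ v x‖ * ‖grad G v x‖ :=
          (le_abs_self _).trans ((fderiv ℝ v x).le_opNorm _)
      _ ≤ ‖fderiv ℝ v x‖ * (C * ‖fderiv ℝ v x‖) := mul_le_mul_of_nonneg_left h5 (norm_nonneg _)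
      _ ≤ C * C * ‖fderiv ℝ v x‖ * ‖fderiv ℝ v x‖ := by
          rw [← mul_assoc, mul_comm ‖fderiv ℝ v x‖ C]
          gcongr
          exact le_mul_of_one_le_left hC0 hC1
      _ = (C * ‖fderiv ℝ v x‖) ^ 2 := by ring

theorem sobolev_sq (hn : 2 ≤ n) : ∃ C : ℝ, 0 ≤ C ∧ ∀ v : E n → ℝ, Cls v →
    (∫ x, v x ^ 2) ^ (n - 1) ≤ C * (∫ x, ‖fderiv ℝ v x‖) ^ n := by
  set p : ℝ := (n : ℝ) / ((n : ℝ) - 1) with hp
  have hn' : (2 : ℝ) ≤ n := by exact_mod_cast hn
  have hp0 : 0 < p := div_pos (by linarith) (by linarith)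
  have hp2 : p ≤ 2 := by rw [hp, div_le_iff₀ (by linarith)]; linarith
  have hpc : Real.HolderConjugate (Module.finrank ℝ (E n) : ℝ) p := by
    rw [finrank_euclideanSpace_fin, Real.holderConjugate_iff]
    refine ⟨by linarith, ?_⟩
    rw [hp, inv_div]
    field_simp
    ring
  set C := lintegralPowLePowLIntegralFDerivConst (volume : Measure (E n)) p
  refine ⟨(C : ℝ) ^ (n - 1), pow_nonneg C.2 _, fun v hv => ?_⟩
  have hD : Integrable fun x => ‖fderiv ℝ v x‖ :=
    (hv.c1.continuous_fderiv one_ne_zero).norm.integrable_of_hasCompactSupport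
      (hv.supp.fderiv ℝ).norm
  have h2 : Integrable fun x => v x ^ 2 :=
    (hv.c1.continuous.pow 2).integrable_of_hasCompactSupport
      (HasCompactSupport.intro hv.supp fun x hx => by simp [image_eq_zero_of_notMem_tsupport hx])
  set I := ∫ x, ‖fderiv ℝ v x‖
  have hI : 0 ≤ I := integral_nonneg fun x => norm_nonneg _
  have e1 : ENNReal.ofReal (∫ x, v x ^ 2) ≤ ∫⁻ x, ‖v x‖ₑ ^ p := by
    rw [ofReal_integral_eq_lintegral_ofReal h2 (ae_of_all _ fun x => sq_nonneg _)]
    refine lintegral_mono fun x => ?_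
    obtain ⟨h0, h1⟩ := hv.mem x
    rw [Real.enorm_eq_ofReal h0, ENNReal.ofReal_rpow_of_nonneg h0 hp0.le]
    refine ENNReal.ofReal_le_ofReal ?_
    rcases h0.lt_or_eq with h | h
    · rw [← Real.rpow_natCast (v x) 2]
      exact Real.rpow_le_rpow_of_exponent_ge h h1 (by exact_mod_cast hp2)
    · rw [← h, Real.zero_rpow hp0.ne']; norm_num
  have e2 : ∫⁻ x, ‖fderiv ℝ v x‖ₑ = ENNReal.ofReal I := by
    rw [ofReal_integral_eq_lintegral_ofReal hD (ae_of_all _ fun x => norm_nonneg _)]
    simp only [ofReal_norm]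
  have e3 : ∫ x, v x ^ 2 ≤ C * I ^ p := by
    have h := e1.trans (lintegral_pow_le_pow_lintegral_fderiv volume hv.c1 hv.supp hpc)
    rw [e2, ENNReal.ofReal_rpow_of_nonneg hI hp0.le, ← ENNReal.ofReal_coe_nnreal,
      ← ENNReal.ofReal_mul NNReal.zero_le_coe] at h
    exact (ENNReal.ofReal_le_ofReal_iff (mul_nonneg C.2 (Real.rpow_nonneg hI _))).1 h
  calc (∫ x, v x ^ 2) ^ (n - 1) ≤ (C * I ^ p) ^ (n - 1) :=
        pow_le_pow_left₀ (integral_nonneg fun x => sq_nonneg _) e3 _
    _ = (C : ℝ) ^ (n - 1) * I ^ n := by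
        rw [mul_pow, ← Real.rpow_natCast (I ^ p) (n - 1), ← Real.rpow_mul hI,
          Nat.cast_sub (by omega : 1 ≤ n), hp, Nat.cast_one, div_mul_cancel₀ _ (by linarith),
          Real.rpow_natCast]

end

end Vale.Agent.P219.CH.Full.Minimiser
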