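import Vale.Agent.P219.CH.Full.Minimiser.Basic
import Vale.Agent.P219.CH.Full.Statements

/-!
P219, the minimiser module: almost minimisers of a negative deficit.
-/

namespace Vale.Agent.P219.CH.Full.Minimiser

open MeasureTheory Filter Topology Set Metric
open scoped ContDiff RealInnerProductSpace

noncomputable section

theorem existsStmt (hP : ProfStmt) : ExistsStmt := by
  intro n G e hn he hG η hη δ hδ hbad
  push Not at hbad
  obtain ⟨-, hmono, -, -⟩ := hP n e hn he
  set D : ℝ → (E n → ℝ) → ℝ := fun L f =>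
    tvar G f + L * midv G f - profE n e (wmass G η f) with hD
  set V := ∫ x, η x ∂vol G with hV
  have hge : ∀ L, 0 ≤ L → ∀ f, Cls f → -profE n e V ≤ D L f := fun L hL f hf => by
    have h1 := hmono (wmass_mem hG hη hf).2
    have h2 := Core.Mini.tvar_nonneg G f
    have h3 := mul_nonneg hL (midv_nonneg (G := G) hf)
    simp only [hD]
    linarith
  set m : ℝ → ℝ := fun L => sInf (D L '' {f | Cls f}) with hm
  have hle : ∀ L, 0 ≤ L → ∀ f, Cls f → m L ≤ D L f := fun L hL f hf =>
    csInf_le ⟨_, forall_mem_image.2 fun g hg => hge L hL g hg⟩ (mem_image_of_mem _ hf)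
  have hneg : ∀ L, 0 ≤ L → m L < -δ := fun L hL => by
    obtain ⟨f, hf, h⟩ := hbad L hL
    refine (hle L hL f hf).trans_lt ?_
    simp only [hD]
    linarith
  have key : ∀ j : ℕ, ∃ L, 1 ≤ L ∧ ∃ f, Cls f ∧ D L f ≤ -δ ∧ L * midv G f ≤ 4 / ((j : ℝ) + 1) ∧
      ∀ g, Cls g → D L f ≤ D L g + 1 / ((j : ℝ) + 1) := by
    intro j
    set ε : ℝ := 1 / ((j : ℝ) + 1) with hε
    have hε0 : 0 < ε := by positivity
    obtain ⟨k, hk⟩ : ∃ k : ℕ, m (2 ^ (k + 1)) - m (2 ^ k) ≤ ε := by
      by_contra hc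
      push Not at hc
      have hgrow : ∀ k : ℕ, m 1 + k * ε ≤ m (2 ^ k) := fun k => by
        induction k with
        | zero => simp
        | succ k ih => push_cast; linarith [hc k]
      obtain ⟨k, hk⟩ := exists_nat_gt ((-δ - m 1) / ε)
      rw [div_lt_iff₀ hε0] at hk
      linarith [hgrow k, hneg (2 ^ k) (by positivity)]
    set L : ℝ := 2 ^ k with hL
    have hL0 : 0 < L := by positivity
    rw [show (2 : ℝ) ^ (k + 1) = 2 * L by rw [hL, pow_succ]; ring] at hk
    obtain ⟨f0, hf0, -⟩ := hbad 0 le_rfl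
    obtain ⟨_, ⟨f, hf, rfl⟩, hlt⟩ := exists_lt_of_csInf_lt
      (⟨_, mem_image_of_mem (D (2 * L)) (show f0 ∈ {f | Cls f} from hf0)⟩)
      (lt_min (show m (2 * L) < m (2 * L) + ε by linarith) (hneg (2 * L) (by positivity)))
    rw [lt_min_iff] at hlt
    refine ⟨2 * L, by linarith [one_le_pow₀ (M₀ := ℝ) (a := 2) (n := k) (by norm_num)], f, hf,
      hlt.2.le, ?_, fun g hg => by linarith [hle (2 * L) (by positivity) g hg]⟩
    have h1 := hle L hL0.le f hf
    have e1 : D (2 * L) f = D L f + L * midv G f := by simp only [hD]; ring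
    rw [show 4 / ((j : ℝ) + 1) = 4 * ε by rw [hε]; ring]
    linarith
  choose L hL1 f hf hfD hfm hfmin using key
  have hpos : ∀ j, 0 ≤ L j * midv G (f j) := fun j =>
    mul_nonneg (zero_le_one.trans (hL1 j)) (midv_nonneg (hf j))
  have htv : ∀ j, tvar G (f j) ≤ profE n e (wmass G η (f j)) - δ := fun j => by
    have h := hfD j
    simp only [hD] at h
    linarith [hpos j]
  refine ⟨f, ⟨{
    L := L
    ε := fun j => 1 / ((j : ℝ) + 1)
    L_one := hL1
    ε_lim := tendsto_one_div_add_atTop_nhds_zero_nat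
    cls := hf
    mid_lim := ?_
    bounded := ⟨profE n e V, fun j => by linarith [htv j, hmono (wmass_mem hG hη (hf j)).2]⟩
    min := hfmin }⟩, htv⟩
  refine squeeze_zero hpos hfm ?_
  simpa [div_eq_mul_inv] using tendsto_one_div_add_atTop_nhds_zero_nat.const_mul (4 : ℝ)

end

end Vale.Agent.P219.CH.Full.Minimiser
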